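import Vale.Agent.P250.H3.Deg

/-!
P250 (helper3): bounded holomorphic functions on the disc bundles: separation of points and an
upper bound for the order of degeneracy.
-/

set_option maxSynthPendingDepth 3
set_option linter.unusedSectionVars false

namespace Vale.Agent.P250.H3

open Set Filter Topology Metric Asymptotics Vale.Agent.P250 Vale.Agent.P250.G Vale.Agent.P250.H154

variable {W : Type*} [NormedAddCommGroup W] [InnerProductSpace ℂ W] [FiniteDimensional ℂ W]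

/-- the property of the weight used below: functions with weight `χ` to the power `N` -/
def HasFun (χ : (ℂ × ℂ) × W → ℝ) (N : ℕ) : Prop :=
  ∀ q0 ∈ DD, ∃ f : ℂ × ℂ → ℂ, DifferentiableOn ℂ f DD ∧
    (∃ C : ℝ, ∀ q ∈ DD, ‖f q‖ ≤ C * Real.exp (N * χ (q, 0))) ∧ f q0 ≠ 0

omit [InnerProductSpace ℂ W] [FiniteDimensional ℂ W] in
lemma rho_of_mem {χ : (ℂ × ℂ) × W → ℝ} {x : ((ℂ × ℂ) × W) × ℂ} (hx : x ∈ MMg (DDG W) χ) :
    ‖x.1.2‖ ^ 2 < rho x.1.1 := by
  have h : (0 : ℝ) < rhoG x.1 := hx.1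
  have h2 : rhoG x.1 = rho x.1.1 - ‖x.1.2‖ ^ 2 := rfl
  linarith

omit [InnerProductSpace ℂ W] [FiniteDimensional ℂ W] in
lemma fst_mem {χ : (ℂ × ℂ) × W → ℝ} {x : ((ℂ × ℂ) × W) × ℂ} (hx : x ∈ MMg (DDG W) χ) :
    x.1.1 ∈ DD := by
  have h := rho_of_mem hx
  show 0 < rho x.1.1
  nlinarith [sq_nonneg ‖x.1.2‖]

omit [InnerProductSpace ℂ W] [FiniteDimensional ℂ W] in
lemma den1 {χ : (ℂ × ℂ) × W → ℝ} {x : ((ℂ × ℂ) × W) × ℂ} (hx : x ∈ MMg (DDG W) χ) :
    1 + ‖x.1.2‖ ^ 2 ≤ ‖x.1.1.2 + Complex.I‖ := by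
  have h := rho_of_mem hx
  have h1 : (x.1.1.2 + Complex.I).im ≤ ‖x.1.1.2 + Complex.I‖ := Complex.im_le_norm _
  have h2 : (x.1.1.2 + Complex.I).im = x.1.1.2.im + 1 := by simp
  have h3 : rho x.1.1 = x.1.1.2.im - x.1.1.1.im ^ 2 := rfl
  nlinarith [sq_nonneg x.1.1.1.im]

omit [InnerProductSpace ℂ W] [FiniteDimensional ℂ W] in
lemma den2 {χ : (ℂ × ℂ) × W → ℝ} {x : ((ℂ × ℂ) × W) × ℂ} (hx : x ∈ MMg (DDG W) χ) :
    1 ≤ ‖x.1.1.2 - 2 * x.1.1.1 + 2 * Complex.I‖ := by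
  have h := rho_of_mem hx
  have h1 : (x.1.1.2 - 2 * x.1.1.1 + 2 * Complex.I).im ≤
    ‖x.1.1.2 - 2 * x.1.1.1 + 2 * Complex.I‖ := Complex.im_le_norm _
  have h2 : (x.1.1.2 - 2 * x.1.1.1 + 2 * Complex.I).im = x.1.1.2.im - 2 * x.1.1.1.im + 2 := by
    simp
  have h3 : rho x.1.1 = x.1.1.2.im - x.1.1.1.im ^ 2 := rfl
  nlinarith [sq_nonneg (x.1.1.1.im - 1), sq_nonneg ‖x.1.2‖]

omit [InnerProductSpace ℂ W] [FiniteDimensional ℂ W] in
lemma den1_ne {χ : (ℂ × ℂ) × W → ℝ} {x : ((ℂ × ℂ) × W) × ℂ} (hx : x ∈ MMg (DDG W) χ) :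
    x.1.1.2 + Complex.I ≠ 0 := by
  intro h
  have := den1 hx
  rw [h, norm_zero] at this
  nlinarith [sq_nonneg ‖x.1.2‖]

omit [InnerProductSpace ℂ W] [FiniteDimensional ℂ W] in
lemma den2_ne {χ : (ℂ × ℂ) × W → ℝ} {x : ((ℂ × ℂ) × W) × ℂ} (hx : x ∈ MMg (DDG W) χ) :
    x.1.1.2 - 2 * x.1.1.1 + 2 * Complex.I ≠ 0 := by
  intro h
  have := den2 hx
  rw [h, norm_zero] at this
  linarith

lemma BH_F1 (χ : (ℂ × ℂ) × W → ℝ) :
    BH (MMg (DDG W) χ) (fun x => (x.1.1.2 + Complex.I)⁻¹) := by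
  refine ⟨?_, 1, ?_⟩
  · apply DifferentiableOn.inv
    · fun_prop
    · exact fun x hx => den1_ne hx
  · intro x hx
    rw [norm_inv]
    apply inv_le_one_of_one_le₀
    have := den1 hx
    nlinarith [sq_nonneg ‖x.1.2‖]

lemma BH_F2 (χ : (ℂ × ℂ) × W → ℝ) :
    BH (MMg (DDG W) χ) (fun x => (x.1.1.2 - 2 * x.1.1.1 + 2 * Complex.I)⁻¹) := by
  refine ⟨?_, 1, ?_⟩
  · apply DifferentiableOn.inv
    · fun_prop
    · exact fun x hx => den2_ne hx
  · intro x hx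
    rw [norm_inv]
    exact inv_le_one_of_one_le₀ (den2 hx)

lemma BH_F3 (χ : (ℂ × ℂ) × W → ℝ) (w0 : W) :
    BH (MMg (DDG W) χ) (fun x => inner ℂ w0 x.1.2 * (x.1.1.2 + Complex.I)⁻¹) := by
  refine ⟨?_, ‖w0‖, ?_⟩
  · apply DifferentiableOn.mul
    · have h : (fun x : ((ℂ × ℂ) × W) × ℂ => inner ℂ w0 x.1.2) = fun x => innerSL ℂ w0 x.1.2 := rfl
      rw [h]
      exact ((innerSL ℂ w0).differentiable.comp (by fun_prop)).differentiableOn
    · exact (BH_F1 χ).1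
  · intro x hx
    rw [norm_mul, norm_inv]
    have h1 := den1 hx
    have h2 : ‖(inner ℂ w0 x.1.2 : ℂ)‖ ≤ ‖w0‖ * ‖x.1.2‖ := norm_inner_le_norm _ _
    have h3 : ‖x.1.2‖ ≤ ‖x.1.1.2 + Complex.I‖ := by nlinarith [sq_nonneg (‖x.1.2‖ - 1)]
    have h4 : 0 < ‖x.1.1.2 + Complex.I‖ := norm_pos_iff.2 (den1_ne hx)
    rw [← div_eq_mul_inv, div_le_iff₀ h4]
    exact h2.trans (mul_le_mul_of_nonneg_left h3 (norm_nonneg _))

lemma BH_F4 {χ : (ℂ × ℂ) × W → ℝ} (hχ : ∀ x ∈ DDG W, χ (x.1, 0) ≤ χ x) {N : ℕ}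
    {f : ℂ × ℂ → ℂ} (hf : DifferentiableOn ℂ f DD)
    (hC : ∃ C : ℝ, ∀ q ∈ DD, ‖f q‖ ≤ C * Real.exp (N * χ (q, 0))) :
    BH (MMg (DDG W) χ) (fun x => f x.1.1 * x.2 ^ N) := by
  obtain ⟨C, hC⟩ := hC
  refine ⟨?_, |C|, ?_⟩
  · apply DifferentiableOn.mul
    · exact hf.comp (by fun_prop) fun x hx => fst_mem hx
    · fun_prop
  · intro x hx
    have h1 := hC _ (fst_mem hx)
    have h2 : ‖x.2‖ ^ 2 * Real.exp (2 * χ x.1) < 1 := hx.2
    have h3 : ‖x.2‖ * Real.exp (χ x.1) ≤ 1 := by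
      have e : ‖x.2‖ ^ 2 * Real.exp (2 * χ x.1) = (‖x.2‖ * Real.exp (χ x.1)) ^ 2 := by
        rw [mul_pow, ← Real.exp_nat_mul]
        norm_num
      rw [e] at h2
      have h0 : 0 ≤ ‖x.2‖ * Real.exp (χ x.1) := by positivity
      nlinarith
    have h4 : ‖x.2‖ * Real.exp (χ (x.1.1, 0)) ≤ 1 := by
      refine le_trans ?_ h3
      have := hχ x.1 hx.1
      gcongr
    rw [norm_mul, norm_pow]
    calc ‖f x.1.1‖ * ‖x.2‖ ^ N ≤ (|C| * Real.exp (N * χ (x.1.1, 0))) * ‖x.2‖ ^ N := by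
          gcongr
          refine h1.trans ?_
          gcongr
          exact le_abs_self C
      _ = |C| * (‖x.2‖ * Real.exp (χ (x.1.1, 0))) ^ N := by
          rw [mul_pow, ← Real.exp_nat_mul]; ring
      _ ≤ |C| * 1 := by
          gcongr
          exact pow_le_one₀ (by positivity) h4
      _ = |C| := mul_one _

/-- **Separation of points.** -/
theorem separates {χ : (ℂ × ℂ) × W → ℝ} (hχ : ∀ x ∈ DDG W, χ (x.1, 0) ≤ χ x) {N : ℕ}
    (hN : 1 ≤ N) (h1 : HasFun χ N) (h2 : HasFun χ (N + 1)) :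
    SeparatesPoints (MMg (DDG W) χ) := by
  intro x hx y hy hxy
  by_cases e1 : x.1.1.2 = y.1.1.2
  · by_cases e2 : x.1.1.1 = y.1.1.1
    · by_cases e3 : x.1.2 = y.1.2
      · have hx1 : x.1 = y.1 := by
          refine Prod.ext (Prod.ext e2 e1) e3
        have e4 : x.2 ≠ y.2 := fun h => hxy (Prod.ext hx1 h)
        obtain ⟨f, hf, hfC, hf0⟩ := h1 x.1.1 (fst_mem hx)
        obtain ⟨f', hf', hfC', hf0'⟩ := h2 x.1.1 (fst_mem hx)
        by_cases e5 : x.2 ^ N = y.2 ^ N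
        · have e6 : x.2 ^ (N + 1) ≠ y.2 ^ (N + 1) := by
            intro h
            rw [pow_succ, pow_succ, e5] at h
            rcases mul_eq_mul_left_iff.1 h with h' | h'
            · exact e4 h'
            · have hy0 : y.2 = 0 := by
                by_contra hc
                exact (pow_ne_zero N hc) h'
              rw [h'] at e5
              have hx0 : x.2 = 0 := by
                by_contra hc
                exact (pow_ne_zero N hc) e5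
              exact e4 (hx0.trans hy0.symm)
          obtain ⟨b1, b2⟩ := BH_F4 hχ hf' hfC'
          refine ⟨_, b1, b2, ?_⟩
          rw [← hx1]
          intro h
          exact e6 (mul_left_cancel₀ hf0' h)
        · obtain ⟨b1, b2⟩ := BH_F4 hχ hf hfC
          refine ⟨_, b1, b2, ?_⟩
          rw [← hx1]
          intro h
          exact e5 (mul_left_cancel₀ hf0 h)
      · obtain ⟨b1, b2⟩ := BH_F3 χ (x.1.2 - y.1.2)
        refine ⟨_, b1, b2, ?_⟩
        rw [← e1]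
        intro h
        have h3 := mul_right_cancel₀ (inv_ne_zero (den1_ne hx)) h
        have h4 : (inner ℂ (x.1.2 - y.1.2) (x.1.2 - y.1.2) : ℂ) = 0 := by
          rw [inner_sub_right, h3, sub_self]
        exact e3 (sub_eq_zero.1 (inner_self_eq_zero.1 h4))
    · obtain ⟨b1, b2⟩ := BH_F2 (W := W) χ
      refine ⟨_, b1, b2, ?_⟩
      rw [e1]
      intro h
      have h3 := inv_injective h
      apply e2
      linear_combination (-1 / 2 : ℂ) * h3
  · obtain ⟨b1, b2⟩ := BH_F1 (W := W) χ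
    refine ⟨_, b1, b2, ?_⟩
    intro h
    have h3 := inv_injective h
    exact e1 (add_right_cancel h3)

/-- **The order of degeneracy is finite.** -/
theorem not_deg {χ : (ℂ × ℂ) × W → ℝ} (hχc : ContinuousOn χ (DDG W))
    (hχ : ∀ x ∈ DDG W, χ (x.1, 0) ≤ χ x) {N : ℕ}
    (hN : 1 ≤ N) (h1 : HasFun χ N) : ¬ Deg (MMg (DDG W) χ) N := by
  rintro ⟨γ, r, hr, hγ, hm, hd, hF⟩
  have h0 : (0 : ℂ) ∈ ball (0 : ℂ) r := mem_ball_self hr
  have hM : IsOpen (MMg (DDG W) χ) := GNot.isOpen_MMg _ GNot.isOpen_DDG χ hχc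
  have hx := hm h0
  set x := γ 0 with hxd
  set v := deriv γ 0 with hv
  have hγd : HasDerivAt γ v 0 :=
    (hγ.differentiableAt (isOpen_ball.mem_nhds h0)).hasDerivAt
  -- all bounded functions are stationary
  have hstat : ∀ F : ((ℂ × ℂ) × W) × ℂ → ℂ, BH (MMg (DDG W) χ) F → fderiv ℂ F x v = 0 := by
    intro F hFM
    have h2 := hF F hFM
    have h3 : HasDerivAt (fun t => F (γ t)) (fderiv ℂ F x v) 0 :=
      ((hFM.1.differentiableAt (hM.mem_nhds hx)).hasFDerivAt).comp_hasDerivAt (0 : ℂ) hγd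
    have h4 : HasDerivAt (fun t => F (γ t)) 0 0 := by
      rw [hasDerivAt_iff_isLittleO]
      simp only [sub_zero, smul_zero]
      refine h2.trans_isLittleO ?_
      have : (fun t : ℂ => t ^ (N + 1)) =o[𝓝 0] (fun t : ℂ => t ^ 1) :=
        isLittleO_pow_pow (by omega)
      simpa using this
    exact h3.unique h4
  -- the components of `v`
  have hc1 : HasFDerivAt (fun y : ((ℂ × ℂ) × W) × ℂ => y.1.1.2)
      ((ContinuousLinearMap.snd ℂ ℂ ℂ).comp ((ContinuousLinearMap.fst ℂ (ℂ × ℂ) W).comp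
        (ContinuousLinearMap.fst ℂ ((ℂ × ℂ) × W) ℂ))) x :=
    ((ContinuousLinearMap.snd ℂ ℂ ℂ).comp ((ContinuousLinearMap.fst ℂ (ℂ × ℂ) W).comp
        (ContinuousLinearMap.fst ℂ ((ℂ × ℂ) × W) ℂ))).hasFDerivAt
  have hc0 : HasFDerivAt (fun y : ((ℂ × ℂ) × W) × ℂ => y.1.1.1)
      ((ContinuousLinearMap.fst ℂ ℂ ℂ).comp ((ContinuousLinearMap.fst ℂ (ℂ × ℂ) W).comp
        (ContinuousLinearMap.fst ℂ ((ℂ × ℂ) × W) ℂ))) x :=
    ((ContinuousLinearMap.fst ℂ ℂ ℂ).comp ((ContinuousLinearMap.fst ℂ (ℂ × ℂ) W).comp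
        (ContinuousLinearMap.fst ℂ ((ℂ × ℂ) × W) ℂ))).hasFDerivAt
  have g1 : HasDerivAt (fun t => (γ t).1.1.2) v.1.1.2 0 := hc1.comp_hasDerivAt (0 : ℂ) hγd
  have g0 : HasDerivAt (fun t => (γ t).1.1.1) v.1.1.1 0 := hc0.comp_hasDerivAt (0 : ℂ) hγd
  have gw : HasDerivAt (fun t => (γ t).1.2) v.1.2 0 := by
    have := ((ContinuousLinearMap.snd ℂ (ℂ × ℂ) W).comp
        (ContinuousLinearMap.fst ℂ ((ℂ × ℂ) × W) ℂ)).hasFDerivAt (x := x)
    exact this.comp_hasDerivAt (0 : ℂ) hγd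
  have gf : HasDerivAt (fun t => (γ t).2) v.2 0 := by
    have := (ContinuousLinearMap.snd ℂ ((ℂ × ℂ) × W) ℂ).hasFDerivAt (x := x)
    exact this.comp_hasDerivAt (0 : ℂ) hγd
  have hder : ∀ F : ((ℂ × ℂ) × W) × ℂ → ℂ, BH (MMg (DDG W) χ) F →
      HasDerivAt (fun t => F (γ t)) 0 0 := by
    intro F hFM
    have h3 : HasDerivAt (fun t => F (γ t)) (fderiv ℂ F x v) 0 :=
      ((hFM.1.differentiableAt (hM.mem_nhds hx)).hasFDerivAt).comp_hasDerivAt (0 : ℂ) hγd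
    rwa [hstat F hFM] at h3
  have v2 : v.1.1.2 = 0 := by
    have a1 := hder _ (BH_F1 χ)
    have a2 := (g1.add_const Complex.I).inv (den1_ne hx)
    have a3 := a1.unique a2
    have a4 : (x.1.1.2 + Complex.I) ^ 2 ≠ 0 := pow_ne_zero 2 (den1_ne hx)
    have a5 : -v.1.1.2 = 0 := by
      by_contra hc
      exact (div_ne_zero hc a4) a3.symm
    exact neg_eq_zero.1 a5
  have v1 : v.1.1.1 = 0 := by
    have a1 := hder _ (BH_F2 χ)
    have a2 := ((g1.sub (g0.const_mul 2)).add_const (2 * Complex.I)).inv (den2_ne hx)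
    have a3 := a1.unique a2
    have a4 : (x.1.1.2 - 2 * x.1.1.1 + 2 * Complex.I) ^ 2 ≠ 0 := pow_ne_zero 2 (den2_ne hx)
    have a5 : -(v.1.1.2 - 2 * v.1.1.1) = 0 := by
      by_contra hc
      exact (div_ne_zero hc a4) a3.symm
    rw [v2] at a5
    linear_combination (1 / 2 : ℂ) * a5
  have vw : v.1.2 = 0 := by
    have a1 := hder _ (BH_F3 χ v.1.2)
    have a0 : HasDerivAt (fun t => (inner ℂ v.1.2 (γ t).1.2 : ℂ)) (inner ℂ v.1.2 v.1.2) 0 := by
      have := (innerSL ℂ v.1.2).hasFDerivAt (x := x.1.2)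
      exact this.comp_hasDerivAt (0 : ℂ) gw
    have a2 := a0.mul ((g1.add_const Complex.I).inv (den1_ne hx))
    have a3 := a1.unique a2
    rw [v2] at a3
    simp only [neg_zero, zero_div, mul_zero, add_zero] at a3
    have a4 : (inner ℂ v.1.2 v.1.2 : ℂ) = 0 := by
      by_contra hc
      exact (mul_ne_zero hc (inv_ne_zero (den1_ne hx))) a3.symm
    exact inner_self_eq_zero.1 a4
  have vf : v.2 ≠ 0 := by
    intro h
    apply hd
    exact Prod.ext (Prod.ext (Prod.ext v1 v2) vw) h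
  -- the function `f(q) w^N`
  obtain ⟨f, hf, hfC, hf0⟩ := h1 x.1.1 (fst_mem hx)
  have hB := BH_F4 hχ hf hfC
  have gq : HasDerivAt (fun t => (γ t).1.1) (0 : ℂ × ℂ) 0 := by
    have := ((ContinuousLinearMap.fst ℂ (ℂ × ℂ) W).comp
        (ContinuousLinearMap.fst ℂ ((ℂ × ℂ) × W) ℂ)).hasFDerivAt (x := x)
    have h5 := this.comp_hasDerivAt (0 : ℂ) hγd
    have h6 : ((ContinuousLinearMap.fst ℂ (ℂ × ℂ) W).comp
        (ContinuousLinearMap.fst ℂ ((ℂ × ℂ) × W) ℂ)) v = (0 : ℂ × ℂ) := Prod.ext v1 v2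
    rw [h6] at h5
    exact h5
  have hfd : DifferentiableAt ℂ f x.1.1 :=
    hf.differentiableAt (PJ.isOpen_DD'.mem_nhds (fst_mem hx))
  have gfq : HasDerivAt (fun t => f (γ t).1.1) 0 0 := by
    have h5 := hfd.hasFDerivAt.comp_hasDerivAt (0 : ℂ) gq
    rwa [map_zero] at h5
  by_cases hw : x.2 = 0
  · -- on the zero section: the order is exactly `N`
    have hO := hF _ hB
    simp only [hw] at hO
    have hlim1 : Tendsto (fun t : ℂ => (γ t).2 / t) (𝓝[≠] 0) (𝓝 v.2) := by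
      have h5 := hasDerivAt_iff_tendsto_slope.1 gf
      refine h5.congr' ?_
      filter_upwards [self_mem_nhdsWithin] with t ht
      rw [slope_def_field, sub_zero]
      have : (γ 0).2 = 0 := hw
      rw [this, sub_zero]
    have hlim2 : Tendsto (fun t : ℂ => f (γ t).1.1) (𝓝[≠] 0) (𝓝 (f x.1.1)) :=
      (gfq.continuousAt.tendsto).mono_left nhdsWithin_le_nhds
    have hlim3 := hlim2.mul (hlim1.pow N)
    have hlim4 : Tendsto (fun t : ℂ => f (γ t).1.1 * ((γ t).2 / t) ^ N) (𝓝[≠] 0) (𝓝 0) := by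
      have h5 : (fun t : ℂ => f (γ t).1.1 * ((γ t).2 / t) ^ N) =O[𝓝[≠] 0] (fun t : ℂ => t) := by
        have h6 := hO.mono (nhdsWithin_le_nhds (s := {0}ᶜ))
        have h7 := h6.mul (isBigO_refl (fun t : ℂ => (t ^ N)⁻¹) (𝓝[≠] 0))
        refine IsBigO.congr' h7 ?_ ?_
        · filter_upwards [self_mem_nhdsWithin] with t ht
          have hN0 : (0 : ℂ) ^ N = 0 := zero_pow (by omega)
          rw [hN0, mul_zero, sub_zero, div_pow]
          ring
        · filter_upwards [self_mem_nhdsWithin] with t ht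
          have ht' : t ≠ 0 := ht
          field_simp
          ring
      have h8 : Tendsto (fun t : ℂ => t) (𝓝[≠] 0) (𝓝 0) :=
        tendsto_id.mono_left nhdsWithin_le_nhds
      exact h5.trans_tendsto h8
    have := tendsto_nhds_unique hlim3 hlim4
    exact (mul_ne_zero hf0 (pow_ne_zero N vf)) this
  · have a1 := hder _ hB
    have a2 := gfq.mul (gf.pow N)
    have a3 := a1.unique a2
    simp only [zero_mul, zero_add] at a3
    have hN' : (N : ℂ) ≠ 0 := by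
      have : N ≠ 0 := by omega
      exact_mod_cast this
    exact (mul_ne_zero hf0 (mul_ne_zero (mul_ne_zero hN' (pow_ne_zero (N - 1) hw)) vf)) a3.symm

end Vale.Agent.P250.H3
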