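import Vale.Agent.P250.H154.Defs

/-!
Definitions used in the statement of `P250.SeparatingFamily`: bounded holomorphic functions
separating the points of an open set, and biholomorphic open sets.
-/

namespace Vale.Agent.P250.H3

open Set

variable {E : Type*} [NormedAddCommGroup E] [NormedSpace ℂ E]
variable {E' : Type*} [NormedAddCommGroup E'] [NormedSpace ℂ E']

/-- The bounded holomorphic functions on `M` separate the points of `M`. -/
def SeparatesPoints (M : Set E) : Prop :=
  ∀ p ∈ M, ∀ q ∈ M, p ≠ q → ∃ F : E → ℂ, DifferentiableOn ℂ F M ∧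
    (∃ C : ℝ, ∀ x ∈ M, ‖F x‖ ≤ C) ∧ F p ≠ F q

/-- `M` and `M'` are biholomorphic: there are mutually inverse holomorphic maps. -/
def Biholomorphic (M : Set E) (M' : Set E') : Prop :=
  ∃ (F : E → E') (G : E' → E), DifferentiableOn ℂ F M ∧ DifferentiableOn ℂ G M' ∧
    MapsTo F M M' ∧ MapsTo G M' M ∧ (∀ p ∈ M, G (F p) = p) ∧ (∀ q ∈ M', F (G q) = q)

end Vale.Agent.P250.H3
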