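import Mathlib

/-!
P250 (helper3): locally uniform limits and infinite products of holomorphic functions of several
variables.
-/

open Filter Topology Metric Set

namespace Vale.Agent.P250.H3

section limits

variable {E F : Type*} [NormedAddCommGroup E] [NormedSpace ℂ E]
  [NormedAddCommGroup F] [NormedSpace ℂ F] {ι : Type*} {l : Filter ι}

/-- Cauchy estimate for the Frechet derivative. -/
theorem norm_fderiv_le_of_ball {f : E → F} {x : E} {r C : ℝ} (hr : 0 < r)
    (hf : DifferentiableOn ℂ f (ball x r)) (hC : ∀ y ∈ ball x r, ‖f y‖ ≤ C) :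
    ‖fderiv ℂ f x‖ ≤ C / r := by
  have hC0 : 0 ≤ C := (norm_nonneg _).trans (hC x (mem_ball_self hr))
  have hfx : DifferentiableAt ℂ f x := hf.differentiableAt (ball_mem_nhds x hr)
  refine ContinuousLinearMap.opNorm_le_bound _ (by positivity) fun v => ?_
  rcases eq_or_ne v 0 with rfl | hv
  · simp
  have hv' : 0 < ‖v‖ := norm_pos_iff.2 hv
  have hder : deriv (fun t : ℂ => f (x + t • v)) 0 = fderiv ℂ f x v := by
    have h1 : HasDerivAt (fun t : ℂ => x + t • v) v 0 := by
      simpa using ((hasDerivAt_id (0 : ℂ)).smul_const v).const_add x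
    have h2 : HasFDerivAt f (fderiv ℂ f x) (x + (0 : ℂ) • v) := by simpa using hfx.hasFDerivAt
    exact (h2.comp_hasDerivAt (0 : ℂ) h1).deriv
  have hmem : ∀ t ∈ ball (0 : ℂ) (r / ‖v‖), x + t • v ∈ ball x r := by
    intro t ht
    rw [mem_ball_zero_iff] at ht
    rw [mem_ball, dist_eq_norm, add_sub_cancel_left, norm_smul]
    exact (lt_div_iff₀ hv').1 ht
  have hd : DifferentiableOn ℂ (fun t : ℂ => f (x + t • v)) (ball 0 (r / ‖v‖)) := by
    refine hf.comp ?_ hmem
    fun_prop
  rw [← hder]
  have key : ∀ s : ℝ, 0 < s → s < r / ‖v‖ → ‖deriv (fun t : ℂ => f (x + t • v)) 0‖ ≤ C / s := by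
    intro s hs hs'
    apply Complex.norm_deriv_le_of_forall_mem_sphere_norm_le hs
    · exact (hd.mono (closedBall_subset_ball hs')).diffContOnCl_ball (le_refl _) |>.mono (le_refl _)
    · intro z hz
      exact hC _ (hmem z (by
        rw [mem_sphere_zero_iff_norm] at hz
        rw [mem_ball_zero_iff, hz]; exact hs'))
  have hlim : Tendsto (fun s : ℝ => C / s) (𝓝[<] (r / ‖v‖)) (𝓝 (C / (r / ‖v‖))) := by
    apply tendsto_nhdsWithin_of_tendsto_nhds
    exact tendsto_const_nhds.div tendsto_id (by positivity)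
  have hev : ∀ᶠ s : ℝ in 𝓝[<] (r / ‖v‖), ‖deriv (fun t : ℂ => f (x + t • v)) 0‖ ≤ C / s := by
    have : Ioo 0 (r / ‖v‖) ∈ 𝓝[<] (r / ‖v‖) := Ioo_mem_nhdsLT (by positivity)
    filter_upwards [this] with s hs using key s hs.1 hs.2
  have := ge_of_tendsto hlim hev
  calc _ ≤ C / (r / ‖v‖) := this
    _ = C / r * ‖v‖ := by field_simp

/-- Derivatives of a uniformly Cauchy family of holomorphic functions are uniformly Cauchy on
a smaller ball. -/
theorem uniformCauchy_fderiv {f : ι → E → F} {x : E} {r : ℝ} (hr : 0 < r)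
    (hf : ∀ i, DifferentiableOn ℂ (f i) (ball x (2 * r)))
    (h : UniformCauchySeqOn f l (ball x (2 * r))) :
    UniformCauchySeqOn (fun i => fderiv ℂ (f i)) l (ball x r) := by
  intro u hu
  obtain ⟨ε, hε, hεu⟩ := Metric.mem_uniformity_dist.1 hu
  have h1 := h {p | dist p.1 p.2 < ε * r / 2} (Metric.dist_mem_uniformity (by positivity))
  filter_upwards [h1] with m hm y hy
  apply hεu
  have hsub : ball y r ⊆ ball x (2 * r) := by
    intro z hz
    rw [mem_ball] at hy hz ⊢
    calc dist z x ≤ dist z y + dist y x := dist_triangle _ _ _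
      _ < 2 * r := by linarith
  have hyx : y ∈ ball x (2 * r) := hsub (mem_ball_self hr)
  have hd1 : DifferentiableAt ℂ (f m.1) y := (hf m.1).differentiableAt (isOpen_ball.mem_nhds hyx)
  have hd2 : DifferentiableAt ℂ (f m.2) y := (hf m.2).differentiableAt (isOpen_ball.mem_nhds hyx)
  rw [dist_eq_norm, ← fderiv_sub hd1 hd2]
  have h2 := norm_fderiv_le_of_ball (f := f m.1 - f m.2) (C := ε * r / 2) hr
    (((hf m.1).mono hsub).sub ((hf m.2).mono hsub)) (by
      intro z hz
      have h3 := hm z (hsub hz)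
      simp only [dist_eq_norm] at h3
      exact h3.le)
  calc _ ≤ (ε * r / 2) / r := h2
    _ = ε / 2 := by field_simp
    _ < ε := by linarith

/-- Uniform limits on a ball. -/
theorem tendstoUniformlyOn_fderiv [CompleteSpace F] [l.NeBot] {f : ι → E → F} {g : E → F}
    {x : E} {r : ℝ} (hr : 0 < r)
    (hf : ∀ i, DifferentiableOn ℂ (f i) (ball x (2 * r)))
    (h : TendstoUniformlyOn f g l (ball x (2 * r))) :
    (∀ y ∈ ball x r, DifferentiableAt ℂ g y) ∧
      TendstoUniformlyOn (fun i => fderiv ℂ (f i)) (fderiv ℂ g) l (ball x r) := by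
  have hc := uniformCauchy_fderiv hr hf h.uniformCauchySeqOn
  have hsub : ball x r ⊆ ball x (2 * r) := ball_subset_ball (by linarith)
  -- the pointwise limits of the derivatives
  have h1 : ∀ y, ∃ L : E →L[ℂ] F, y ∈ ball x r → Tendsto (fun i => fderiv ℂ (f i) y) l (𝓝 L) := by
    intro y
    by_cases hy : y ∈ ball x r
    · have h2 : Cauchy (map (fun i => fderiv ℂ (f i) y) l) := hc.cauchy_map hy
      obtain ⟨L, hL⟩ := cauchy_iff_exists_le_nhds.1 h2
      exact ⟨L, fun _ => hL⟩
    · exact ⟨0, fun h => absurd h hy⟩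
  choose g' hg' using h1
  have hu : TendstoUniformlyOn (fun i => fderiv ℂ (f i)) g' l (ball x r) :=
    hc.tendstoUniformlyOn_of_tendsto hg'
  have hd : ∀ y ∈ ball x r, HasFDerivAt g (g' y) y := by
    intro y hy
    refine hasFDerivAt_of_tendstoUniformlyOn (f := f) isOpen_ball hu ?_ ?_ hy
    · intro i z hz
      exact ((hf i).differentiableAt (isOpen_ball.mem_nhds (hsub hz))).hasFDerivAt
    · intro z hz
      exact h.tendsto_at (hsub hz)
  refine ⟨fun y hy => (hd y hy).differentiableAt, ?_⟩
  exact hu.congr_right fun y hy => (hd y hy).fderiv.symm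

omit [NormedSpace ℂ E] [NormedSpace ℂ F] in
theorem exists_ball_unif [ProperSpace E] {f : ι → E → F} {g : E → F} {U : Set E}
    (hU : IsOpen U) (h : TendstoLocallyUniformlyOn f g l U) {x : E} (hx : x ∈ U) :
    ∃ r > 0, ball x (2 * r) ⊆ U ∧ TendstoUniformlyOn f g l (ball x (2 * r)) := by
  obtain ⟨r, hr, hrU⟩ := Metric.isOpen_iff.1 hU x hx
  have h1 : closedBall x (r / 2) ⊆ U := (closedBall_subset_ball (by linarith)).trans hrU
  have h2 := (tendstoLocallyUniformlyOn_iff_forall_isCompact hU).1 h _ h1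
    (isCompact_closedBall x (r / 2))
  have h3 : ball x (2 * (r / 4)) ⊆ closedBall x (r / 2) := by
    refine ball_subset_closedBall.trans (closedBall_subset_closedBall (by linarith))
  exact ⟨r / 4, by positivity, h3.trans h1, h2.mono h3⟩

/-- A locally uniform limit of holomorphic functions on an open set is holomorphic. -/
theorem holo_of_tendstoLocallyUniformlyOn [FiniteDimensional ℂ E] [CompleteSpace F] [l.NeBot]
    {f : ι → E → F} {g : E → F} {U : Set E}
    (hU : IsOpen U) (hf : ∀ i, DifferentiableOn ℂ (f i) U)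
    (h : TendstoLocallyUniformlyOn f g l U) : DifferentiableOn ℂ g U := by
  have : ProperSpace E := FiniteDimensional.proper ℂ E
  intro x hx
  obtain ⟨r, hr, hrU, hunif⟩ := exists_ball_unif hU h hx
  have h1 := (tendstoUniformlyOn_fderiv hr (fun i => (hf i).mono hrU) hunif).1 x
    (mem_ball_self hr)
  exact h1.differentiableWithinAt

/-- A locally normally convergent product of holomorphic functions is holomorphic. -/
theorem holo_tprod [FiniteDimensional ℂ E] {ι : Type*} {f : ι → E → ℂ} {U : Set E}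
    (hU : IsOpen U) (hf : ∀ i, DifferentiableOn ℂ (f i) U)
    (hb : ∀ x ∈ U, ∃ V : Set E, IsOpen V ∧ x ∈ V ∧ V ⊆ U ∧ ∃ u : ι → ℝ, Summable u ∧
      ∀ i, ∀ y ∈ V, ‖f i y - 1‖ ≤ u i) :
    DifferentiableOn ℂ (fun x => ∏' i, f i x) U := by
  have : ProperSpace E := FiniteDimensional.proper ℂ E
  intro x hx
  obtain ⟨V, hV, hxV, hVU, u, hu, hfu⟩ := hb x hx
  have h1 := Summable.hasProdLocallyUniformlyOn_one_add (f := fun i y => f i y - 1) hV hu
    (Filter.Eventually.of_forall fun i y hy => hfu i y hy)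
    (fun i => (((hf i).mono hVU).continuousOn.sub continuousOn_const))
  simp only [add_sub_cancel] at h1
  have h2 := hasProdLocallyUniformlyOn_iff_tendstoLocallyUniformlyOn.1 h1
  have h3 := holo_of_tendstoLocallyUniformlyOn hV (fun s => by
    intro y hy
    have h4 : DifferentiableAt ℂ (fun y => ∏ i ∈ s, f i y) y := by
      induction s using Finset.cons_induction with
      | empty => simp
      | cons a s ha ih =>
        simp only [Finset.prod_cons]
        exact ((hf a).differentiableAt (hU.mem_nhds (hVU hy))).mul ih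
    exact h4.differentiableWithinAt) h2
  exact (h3.differentiableAt (hV.mem_nhds hxV)).differentiableWithinAt

theorem norm_tprod_le {ι : Type*} {f : ι → ℂ} {u : ι → ℝ} (hs : Summable fun i => ‖f i - 1‖)
    (hu : Summable u) (h : ∀ i, ‖f i‖ ≤ Real.exp (u i)) :
    ‖∏' i, f i‖ ≤ Real.exp (∑' i, u i) := by
  have h1 : Multipliable f := by
    have := multipliable_one_add_of_summable (f := fun i => f i - 1) hs
    simpa only [add_sub_cancel] using this
  have h2 : Tendsto (fun s : Finset ι => ‖∏ i ∈ s, f i‖) atTop (𝓝 ‖∏' i, f i‖) :=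
    Filter.Tendsto.norm h1.hasProd
  have h3 : Tendsto (fun s : Finset ι => Real.exp (∑ i ∈ s, u i)) atTop
      (𝓝 (Real.exp (∑' i, u i))) := (Real.continuous_exp.tendsto _).comp hu.hasSum
  refine le_of_tendsto_of_tendsto' h2 h3 fun s => ?_
  rw [norm_prod, Real.exp_sum]
  exact Finset.prod_le_prod (fun i _ => norm_nonneg _) fun i _ => h i

theorem tprod_ne_zero {ι : Type*} {f : ι → ℂ} (hs : Summable fun i => ‖f i - 1‖)
    (h : ∀ i, f i ≠ 0) : ∏' i, f i ≠ 0 := by
  have := tprod_one_add_ne_zero_of_summable (f := fun i => f i - 1) (by simpa using h) hs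
  simpa only [add_sub_cancel] using this

end limits

end Vale.Agent.P250.H3
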