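import Vale.Agent.P250.H3.Fac
import Vale.Agent.P250.H3.Lim

/-!
P250 (helper3): the doubly infinite product over all wells.
-/

namespace Vale.Agent.P250.H3

open Set Filter Topology Metric Vale.Agent.P250 Vale.Agent.P250.PJ

/-! ### elementary sums -/

/-- the weights of the neighbouring centres -/
noncomputable def bb (m : ℤ) : ℝ :=
  26 / 1000 * (1 / 2 : ℝ) ^ m.natAbs + (if m = 0 then 422 / 1000 else 0)

lemma bb_zero : bb 0 = 56 / 125 := by
  unfold bb; norm_num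

lemma bb_nonneg (m : ℤ) : 0 ≤ bb m := by
  unfold bb
  have : (0 : ℝ) ≤ if m = 0 then 422 / 1000 else 0 := by split_ifs <;> norm_num
  positivity

lemma bb_of_ne {m : ℤ} (hm : m ≠ 0) : bb m = 26 / 1000 * (1 / 2 : ℝ) ^ m.natAbs := by
  unfold bb; rw [if_neg hm, add_zero]

lemma hasSum_half_natAbs : HasSum (fun m : ℤ => (1 / 2 : ℝ) ^ m.natAbs) 3 := by
  have h1 : HasSum (fun n : ℕ => (1 / 2 : ℝ) ^ ((n : ℤ)).natAbs) 2 := by
    simpa using hasSum_geometric_two
  have h2 : HasSum (fun n : ℕ => (1 / 2 : ℝ) ^ (-((n : ℤ) + 1)).natAbs) 1 := by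
    have h3 := hasSum_geometric_two.mul_left (1 / 2 : ℝ)
    have e : (fun n : ℕ => (1 / 2 : ℝ) ^ (-((n : ℤ) + 1)).natAbs) =
        fun n : ℕ => 1 / 2 * (1 / 2 : ℝ) ^ n := by
      funext n
      have : (-((n : ℤ) + 1)).natAbs = n + 1 := by omega
      rw [this, pow_succ]
      ring
    have e2 : (1 / 2 * 2 : ℝ) = 1 := by norm_num
    rw [e2] at h3
    rw [e]
    exact h3
  have := HasSum.of_nat_of_neg_add_one (f := fun m : ℤ => (1 / 2 : ℝ) ^ m.natAbs) h1 h2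
  have e3 : (2 + 1 : ℝ) = 3 := by norm_num
  rw [e3] at this
  exact this

lemma hasSum_bb : HasSum bb (1 / 2) := by
  have h1 := hasSum_half_natAbs.mul_left (26 / 1000 : ℝ)
  have h2 : HasSum (fun m : ℤ => if m = 0 then (422 / 1000 : ℝ) else 0) (422 / 1000) := by
    exact hasSum_ite_eq (0 : ℤ) (422 / 1000 : ℝ)
  have h3 := h1.add h2
  have e : (26 / 1000 * 3 + 422 / 1000 : ℝ) = 1 / 2 := by norm_num
  rw [e] at h3
  exact h3

/-- the decay on fine scales -/
noncomputable def ww (X : ℝ) : ℝ := min 1 (Real.exp (5 - X))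

lemma ww_nonneg (X : ℝ) : 0 ≤ ww X := le_min zero_le_one (Real.exp_pos _).le

lemma exp_neg_le_ww {X : ℝ} (hX : 0 ≤ X) : Real.exp (-X) ≤ ww X := by
  refine le_min ?_ (Real.exp_le_exp.2 (by linarith))
  rw [Real.exp_le_one_iff]; linarith

lemma ww_sum {lam r : ℝ} (hlam : 3 ≤ lam) (hr : 0 < r) :
    Summable (fun k : ℕ => ww (lam ^ (2 * k) * r)) ∧
    ∑' k : ℕ, ww (lam ^ (2 * k) * r) ≤ max 0 (Real.log (5 / r) / (2 * Real.log lam)) + 3 := by
  have hlog : 0 < Real.log lam := Real.log_pos (by linarith)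
  set a := max 0 (Real.log (5 / r) / (2 * Real.log lam)) with ha
  have ha0 : 0 ≤ a := le_max_left _ _
  set N := ⌈a⌉₊ with hN
  have hN1 : a ≤ N := Nat.le_ceil a
  have hN2 : (N : ℝ) < a + 1 := Nat.ceil_lt_add_one ha0
  have h5 : 5 ≤ lam ^ (2 * N) * r := by
    have h1 : Real.log (5 / r) ≤ 2 * N * Real.log lam := by
      have h2 : Real.log (5 / r) / (2 * Real.log lam) ≤ N := (le_max_right _ _).trans hN1
      rw [div_le_iff₀ (by positivity)] at h2
      linarith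
    have h3 : Real.log (5 / r) ≤ Real.log (lam ^ (2 * N)) := by
      rw [Real.log_pow]; push_cast; linarith
    have h4 : 5 / r ≤ lam ^ (2 * N) := (Real.log_le_log_iff (by positivity) (by positivity)).1 h3
    rwa [div_le_iff₀ hr] at h4
  have hbd : ∀ i : ℕ, ww (lam ^ (2 * (i + N)) * r) ≤ (1 / 2 : ℝ) ^ i := by
    intro i
    have h1 : (1 + 8 * (i : ℝ)) ≤ 9 ^ i := by
      have := one_add_mul_le_pow (a := (8 : ℝ)) (by norm_num) i
      norm_num at this
      linarith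
    have h2 : (9 : ℝ) ^ i ≤ lam ^ (2 * i) := by
      rw [pow_mul]
      exact pow_le_pow_left₀ (by norm_num) (by nlinarith) i
    have h3 : lam ^ (2 * (i + N)) * r = lam ^ (2 * i) * (lam ^ (2 * N) * r) := by
      rw [mul_add, pow_add]; ring
    have h4 : 5 + 40 * (i : ℝ) ≤ lam ^ (2 * (i + N)) * r := by
      rw [h3]
      have : (1 + 8 * (i : ℝ)) * 5 ≤ lam ^ (2 * i) * (lam ^ (2 * N) * r) :=
        mul_le_mul (h1.trans h2) h5 (by norm_num) (by positivity)
      linarith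
    have h6 : ww (lam ^ (2 * (i + N)) * r) ≤ Real.exp (-(40 * (i : ℝ))) :=
      (min_le_right _ _).trans (Real.exp_le_exp.2 (by linarith))
    refine h6.trans ?_
    have h7 : Real.exp (-(40 * (i : ℝ))) = Real.exp (-40) ^ i := by
      rw [← Real.exp_nat_mul]; ring_nf
    rw [h7]
    apply pow_le_pow_left₀ (Real.exp_pos _).le
    have h8 : Real.exp (-40) ≤ Real.exp (-1) := Real.exp_le_exp.2 (by norm_num)
    have := Real.exp_neg_one_lt_half
    linarith
  have hs : Summable (fun i : ℕ => ww (lam ^ (2 * (i + N)) * r)) :=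
    Summable.of_nonneg_of_le (fun i => ww_nonneg _) hbd summable_geometric_two
  have hs' : Summable (fun k : ℕ => ww (lam ^ (2 * k) * r)) :=
    (summable_nat_add_iff N).1 hs
  refine ⟨hs', ?_⟩
  rw [← hs'.sum_add_tsum_nat_add N]
  have h9 : ∑ i ∈ Finset.range N, ww (lam ^ (2 * i) * r) ≤ N := by
    calc ∑ i ∈ Finset.range N, ww (lam ^ (2 * i) * r) ≤ ∑ i ∈ Finset.range N, (1 : ℝ) :=
          Finset.sum_le_sum fun i _ => min_le_left _ _
      _ = N := by simp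
  have h10 : ∑' i : ℕ, ww (lam ^ (2 * (i + N)) * r) ≤ 2 := by
    rw [← tsum_geometric_two]
    exact hs.tsum_le_tsum hbd summable_geometric_two
  linarith

/-! ### the factors -/

/-- the variable `ζ_(k,j)` -/
noncomputable def zt (lam : ℝ) (k : ℕ) (j : ℤ) (q : ℂ × ℂ) : ℂ :=
  Complex.exp (Complex.I * om (lam ^ (2 * k)) (xx lam k j) q)

lemma norm_zt {lam : ℝ} (hlam : 2 ≤ lam) (k : ℕ) (j : ℤ) (q : ℂ × ℂ) :
    ‖zt lam k j q‖ = Real.exp (-(lam ^ (2 * k) * rho q) - 25 * (lam ^ k * q.1.im / 5 - j) ^ 2) := by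
  unfold zt
  rw [norm_exp_I_mul, om_im, mul_add, sq_dist_center lam hlam]
  ring_nf

lemma differentiable_zt (lam : ℝ) (k : ℕ) (j : ℤ) : Differentiable ℂ (zt lam k j) := by
  unfold zt om
  fun_prop

lemma norm_zt_le_one {lam : ℝ} (hlam : 2 ≤ lam) (k : ℕ) (j : ℤ) {q : ℂ × ℂ} (hq : q ∈ DD) :
    ‖zt lam k j q‖ ≤ 1 := by
  rw [norm_zt hlam, Real.exp_le_one_iff]
  have : 0 < rho q := hq
  have h1 : 0 ≤ lam ^ (2 * k) * rho q := by positivity
  have h2 := sq_nonneg (lam ^ k * q.1.im / 5 - j)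
  linarith

/-- uniform bound on the sets `{ρ > r₀, |Im z| < Y}` -/
lemma norm_zt_le_unif {lam : ℝ} (hlam : 2 ≤ lam) {r0 Y : ℝ} (hr0 : 0 < r0) (k : ℕ) (j : ℤ)
    {q : ℂ × ℂ} (hq : r0 < rho q) (hY : |q.1.im| < Y) :
    ‖zt lam k j q‖ ≤ Real.exp (1 + (2 * Y + 1) ^ 2 / (4 * r0)) *
      (Real.exp (-1) ^ k * (1 / 2 : ℝ) ^ j.natAbs) := by
  rw [norm_zt hlam]
  set L := lam ^ k with hL
  have hLL : lam ^ (2 * k) = L ^ 2 := by rw [hL, ← pow_mul]; ring_nf
  have hL0 : 0 < L := by positivity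
  have hLk : (k : ℝ) ≤ L := by
    have h1 : (k : ℝ) ≤ 2 ^ k := by exact_mod_cast (Nat.lt_two_pow_self).le
    exact h1.trans (pow_le_pow_left₀ (by norm_num) hlam k)
  have hY0 : 0 < Y := (abs_nonneg _).trans_lt hY
  set s := L * q.1.im / 5 - j with hs
  have h1 : 10 * |s| - 1 ≤ 25 * s ^ 2 := by
    rw [← sq_abs s]; nlinarith [sq_nonneg (5 * |s| - 1)]
  have h2 : (j.natAbs : ℝ) - L * Y / 5 ≤ |s| := by
    have e1 : (j.natAbs : ℝ) = |(j : ℝ)| := by
      rw [Nat.cast_natAbs, Int.cast_abs]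
    have e2 : |(j : ℝ)| ≤ |s| + |L * q.1.im / 5| := by
      have : (j : ℝ) = L * q.1.im / 5 - s := by rw [hs]; ring
      rw [this]
      calc |L * q.1.im / 5 - s| ≤ |L * q.1.im / 5| + |s| := abs_sub _ _
        _ = _ := by ring
    have e3 : |L * q.1.im / 5| ≤ L * Y / 5 := by
      rw [abs_div, abs_mul, abs_of_pos hL0, abs_of_pos (by norm_num : (0:ℝ) < 5)]
      gcongr
    rw [e1]; linarith
  have h3 : L - (2 * Y + 1) ^ 2 / (4 * r0) ≤ L ^ 2 * r0 - 2 * L * Y := by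
    have e : L ^ 2 * r0 - 2 * L * Y - L + (2 * Y + 1) ^ 2 / (4 * r0) =
        (2 * r0 * L - (2 * Y + 1)) ^ 2 / (4 * r0) := by
      field_simp
      ring
    have : 0 ≤ (2 * r0 * L - (2 * Y + 1)) ^ 2 / (4 * r0) := by positivity
    linarith
  have h4 : L ^ 2 * r0 ≤ L ^ 2 * rho q := by gcongr
  have h5 : -(lam ^ (2 * k) * rho q) - 25 * s ^ 2 ≤
      (1 + (2 * Y + 1) ^ 2 / (4 * r0)) + (-(k : ℝ) - j.natAbs) := by
    rw [hLL]
    have : (0 : ℝ) ≤ j.natAbs := by positivity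
    nlinarith
  have h6 : Real.exp (-(j.natAbs : ℝ)) ≤ (1 / 2 : ℝ) ^ j.natAbs := by
    have : Real.exp (-(j.natAbs : ℝ)) = Real.exp (-1) ^ j.natAbs := by
      rw [← Real.exp_nat_mul]; ring_nf
    rw [this]
    exact pow_le_pow_left₀ (Real.exp_pos _).le Real.exp_neg_one_lt_half.le _
  calc Real.exp (-(lam ^ (2 * k) * rho q) - 25 * s ^ 2)
      ≤ Real.exp ((1 + (2 * Y + 1) ^ 2 / (4 * r0)) + (-(k : ℝ) - j.natAbs)) :=
        Real.exp_le_exp.2 h5
    _ = Real.exp (1 + (2 * Y + 1) ^ 2 / (4 * r0)) *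
        (Real.exp (-1) ^ k * Real.exp (-(j.natAbs : ℝ))) := by
        rw [← Real.exp_nat_mul, ← Real.exp_add, ← Real.exp_add]; ring_nf
    _ ≤ _ := by gcongr

lemma summable_unif : Summable (fun i : ℕ × ℤ => Real.exp (-1) ^ i.1 * (1 / 2 : ℝ) ^ i.2.natAbs) := by
  have h1 : Summable (fun k : ℕ => Real.exp (-1) ^ k) := by
    apply summable_geometric_of_lt_one (Real.exp_pos _).le
    have := Real.exp_neg_one_lt_half
    linarith
  exact h1.mul_of_nonneg hasSum_half_natAbs.summable (fun k => by positivity)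
    (fun k => by positivity)

/-! ### the product -/

/-- the product over all wells -/
noncomputable def pp (p : ℕ) (lam : ℝ) (δ : ℕ × ℤ → ℝ) (q : ℂ × ℂ) : ℂ :=
  ∏' i : ℕ × ℤ, fac p (δ i) (zt lam i.1 i.2 q)

lemma exists_pp_bound {p : ℕ} {lam : ℝ} (hlam : 2 ≤ lam) {δ : ℕ × ℤ → ℝ} {d0 : ℝ} (hd0 : d0 < 1)
    (hδ : ∀ i, δ i = 0 ∨ δ i = d0) : ∃ C : ℝ, 0 ≤ C ∧ ∀ r0 Y : ℝ, 0 < r0 →
    ∀ i : ℕ × ℤ, ∀ q : ℂ × ℂ, r0 < rho q → |q.1.im| < Y →
      ‖fac p (δ i) (zt lam i.1 i.2 q) - 1‖ ≤ C * (Real.exp (1 + (2 * Y + 1) ^ 2 / (4 * r0)) *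
      (Real.exp (-1) ^ i.1 * (1 / 2 : ℝ) ^ i.2.natAbs)) := by
  obtain ⟨C1, hC1, h1⟩ := exists_fac_sub_one p (d := 0) (by norm_num)
  obtain ⟨C2, hC2, h2⟩ := exists_fac_sub_one p hd0
  refine ⟨max C1 C2, le_max_of_le_left hC1, ?_⟩
  intro r0 Y hr0 i q hq hY
  have hqD : q ∈ DD := hr0.trans hq
  have h3 := norm_zt_le_one hlam i.1 i.2 hqD
  have h4 := norm_zt_le_unif hlam hr0 i.1 i.2 hq hY
  have h5 : ‖fac p (δ i) (zt lam i.1 i.2 q) - 1‖ ≤ max C1 C2 * ‖zt lam i.1 i.2 q‖ := by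
    rcases hδ i with h | h
    · rw [h]
      exact (h1 _ h3).trans (mul_le_mul_of_nonneg_right (le_max_left _ _) (norm_nonneg _))
    · rw [h]
      exact (h2 _ h3).trans (mul_le_mul_of_nonneg_right (le_max_right _ _) (norm_nonneg _))
  exact h5.trans (mul_le_mul_of_nonneg_left h4 (le_max_of_le_left hC1))

lemma summable_pp {p : ℕ} {lam : ℝ} (hlam : 2 ≤ lam) {δ : ℕ × ℤ → ℝ} {d0 : ℝ} (hd0 : d0 < 1)
    (hδ : ∀ i, δ i = 0 ∨ δ i = d0) {q : ℂ × ℂ} (hq : q ∈ DD) :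
    Summable (fun i : ℕ × ℤ => ‖fac p (δ i) (zt lam i.1 i.2 q) - 1‖) := by
  obtain ⟨C, hC, h⟩ := exists_pp_bound (p := p) hlam hd0 hδ
  have hq' : 0 < rho q := hq
  exact Summable.of_nonneg_of_le (fun i => norm_nonneg _)
    (fun i => h (rho q / 2) (|q.1.im| + 1) (by linarith) i q (by linarith) (by linarith))
    ((summable_unif.mul_left _).mul_left _)

lemma differentiableOn_pp {p : ℕ} {lam : ℝ} (hlam : 2 ≤ lam) {δ : ℕ × ℤ → ℝ} {d0 : ℝ}
    (hd0 : d0 < 1) (hδ : ∀ i, δ i = 0 ∨ δ i = d0) : DifferentiableOn ℂ (pp p lam δ) DD := by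
  obtain ⟨C, hC, h⟩ := exists_pp_bound (p := p) hlam hd0 hδ
  unfold pp
  apply holo_tprod isOpen_DD'
  · intro i
    exact ((differentiable_fac p (δ i)).comp (differentiable_zt lam i.1 i.2)).differentiableOn
  · intro q hq
    have hq' : 0 < rho q := hq
    refine ⟨{q' | rho q / 2 < rho q'} ∩ {q' | |q'.1.im| < |q.1.im| + 1}, ?_, ?_, ?_, _,
      ((summable_unif.mul_left (Real.exp (1 + (2 * (|q.1.im| + 1) + 1) ^ 2 / (4 * (rho q / 2))))).mul_left C),
      ?_⟩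
    · apply IsOpen.inter
      · exact isOpen_lt continuous_const continuous_rho
      · exact isOpen_lt (by fun_prop) continuous_const
    · exact ⟨by show rho q / 2 < rho q; linarith, by show |q.1.im| < |q.1.im| + 1; linarith⟩
    · rintro q' ⟨h1, -⟩
      have h1' : rho q / 2 < rho q' := h1
      show 0 < rho q'
      linarith
    · rintro i q' ⟨h1, h2⟩
      exact h (rho q / 2) (|q.1.im| + 1) (by linarith) i q' h1 h2

/-- the shift of the index to the nearest centre -/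
noncomputable def shiftE (lam : ℝ) (q : ℂ × ℂ) : ℕ × ℤ ≃ ℕ × ℤ where
  toFun i := (i.1, jj lam i.1 q + i.2)
  invFun i := (i.1, i.2 - jj lam i.1 q)
  left_inv i := by ext <;> simp
  right_inv i := by ext <;> simp

lemma summable_Sk {CΨ Λ : ℝ} {Ψ : ℂ → ℝ} (hΨ : IsPsi CΨ Λ Ψ) {lam : ℝ} (hlam : 2 ≤ lam)
    {q : ℂ × ℂ} (hq : q ∈ DD) : Summable (fun k => Sk Ψ lam k q) := by
  obtain ⟨K, hK⟩ := Sk_zero_eventually hΨ hlam hq
  have h1 := hK.self_of_nhds
  apply summable_of_ne_finset_zero (s := Finset.range K)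
  intro k hk
  exact h1 k (by simpa using hk)

theorem norm_pp_le {CΨ Λ : ℝ} {Ψ : ℂ → ℝ} (hΨ : IsPsi CΨ Λ Ψ) {p : ℕ} {M : ℝ}
    (hM : 100 ≤ M) (hpM : M ≤ p) (hpM' : (p : ℝ) ≤ M + 1)
    {η d0 : ℝ} (hη : 0 < η) (hη1 : η ≤ Real.exp (-200)) (hd : 0 ≤ d0)
    (hd1 : d0 ≤ (Real.exp 4 * η) ^ (2 * p)) (hd0 : d0 < 1)
    (hin : ∀ ζ : ℂ, ‖ζ‖ ≤ 1 → ‖ζ‖ ^ 2 ≤ Real.exp (-(19 / 2)) → 0 ≤ Ψ ζ)
    (hout : ∀ ζ : ℂ, ‖ζ‖ ≤ 1 → Real.exp (-(19 / 2)) ≤ ‖ζ‖ ^ 2 →
      Real.log (‖ζ - ((Real.exp (-4) : ℝ) : ℂ)‖ ^ 2 + η ^ 2) + 200 ≤ Ψ ζ)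
    {lam : ℝ} (hlam : 3 ≤ lam) {δ : ℕ × ℤ → ℝ} (hδ : ∀ i, δ i = 0 ∨ δ i = d0)
    {q : ℂ × ℂ} (hq : q ∈ DD) :
    ‖pp p lam δ q‖ ≤ Real.exp (M * ∑' k, Sk Ψ lam k q +
      M / 2 * ∑' k : ℕ, ww (lam ^ (2 * k) * rho q)) := by
  have hlam2 : 2 ≤ lam := by linarith
  have hq0 : 0 < rho q := hq
  have hM0 : 0 ≤ M := by linarith
  have hsum := summable_pp (p := p) hlam2 hd0 hδ hq
  unfold pp
  rw [← (shiftE lam q).tprod_eq]
  have hsum' : Summable (fun i : ℕ × ℤ => ‖fac p (δ (shiftE lam q i))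
      (zt lam (shiftE lam q i).1 (shiftE lam q i).2 q) - 1‖) :=
    ((shiftE lam q).summable_iff (f := fun i : ℕ × ℤ =>
      ‖fac p (δ i) (zt lam i.1 i.2 q) - 1‖)).2 hsum
  -- the majorant
  have hu1 : HasSum (fun i : ℕ × ℤ => if i.2 = 0 then M * Sk Ψ lam i.1 q else 0)
      (M * ∑' k, Sk Ψ lam k q) := by
    have hinj : Function.Injective (fun k : ℕ => ((k, 0) : ℕ × ℤ)) := by
      intro a b h; simpa using h
    refine (hinj.hasSum_iff ?_).1 ?_
    · rintro ⟨k, m⟩ h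
      have : m ≠ 0 := by
        rintro rfl
        exact h ⟨k, rfl⟩
      simp [this]
    · have := (summable_Sk hΨ hlam2 hq).hasSum.mul_left M
      simpa [Function.comp_def] using this
  have hww := ww_sum hlam hq0
  have hs2 : Summable (fun i : ℕ × ℤ => ww (lam ^ (2 * i.1) * rho q) * bb i.2) :=
    hww.1.mul_of_nonneg hasSum_bb.summable (fun _ => ww_nonneg _) bb_nonneg
  have hu2 : HasSum (fun i : ℕ × ℤ => M * (ww (lam ^ (2 * i.1) * rho q) * bb i.2))
      (M / 2 * ∑' k : ℕ, ww (lam ^ (2 * k) * rho q)) := by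
    have h1 := hs2.hasSum.mul_left M
    rw [← hww.1.tsum_mul_tsum hasSum_bb.summable hs2, hasSum_bb.tsum_eq] at h1
    have e : M / 2 * ∑' k : ℕ, ww (lam ^ (2 * k) * rho q) =
        M * ((∑' k : ℕ, ww (lam ^ (2 * k) * rho q)) * (1 / 2)) := by ring
    rw [e]
    exact h1
  have hu := hu1.add hu2
  rw [← hu.tsum_eq]
  apply norm_tprod_le hsum' hu.summable
  rintro ⟨k, m⟩
  have hX : 0 < lam ^ (2 * k) * rho q := by positivity
  set X := lam ^ (2 * k) * rho q with hXd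
  have hδ0 : 0 ≤ δ (shiftE lam q (k, m)) := by
    rcases hδ (shiftE lam q (k, m)) with h | h
    · rw [h]
    · rw [h]; exact hd
  have hδ1 : δ (shiftE lam q (k, m)) ≤ (Real.exp 4 * η) ^ (2 * p) := by
    rcases hδ (shiftE lam q (k, m)) with h | h
    · rw [h]; positivity
    · rw [h]; exact hd1
  have hz1 := norm_zt_le_one hlam2 k (jj lam k q + m) hq
  show ‖fac p (δ (shiftE lam q (k, m))) (zt lam k (jj lam k q + m) q)‖ ≤ _
  by_cases hm : m = 0
  · subst hm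
    simp only [if_true, bb_zero]
    rw [add_zero] at hz1 ⊢
    rcases lt_or_ge X 5 with h5 | h5
    · have hw : ww X = 1 := min_eq_left (by
        have := Real.one_le_exp (show 0 ≤ 5 - X by linarith)
        exact this)
      rw [hw]
      have := norm_fac_le_well hM hpM hpM' hη hη1 hδ0 hδ1 hin hout hz1
      refine this.trans (Real.exp_le_exp.2 (le_of_eq ?_))
      have : Ψ (zt lam k (jj lam k q) q) = Sk Ψ lam k q := rfl
      rw [this]; ring
    · have hnz : ‖zt lam k (jj lam k q) q‖ ≤ Real.exp (-X) := by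
        rw [norm_zt hlam2]
        apply Real.exp_le_exp.2
        have := sq_nonneg (lam ^ k * q.1.im / 5 - (jj lam k q : ℝ))
        linarith
      have hS : Sk Ψ lam k q = 0 := by
        have : Sk Ψ lam k q = Ψ (zt lam k (jj lam k q) q) := rfl
        rw [this]
        apply hΨ.zero
        exact hnz.trans (Real.exp_le_exp.2 (by linarith))
      have hw : ww X = Real.exp (5 - X) := min_eq_right (by
        rw [Real.exp_le_one_iff]; linarith)
      rw [hS, hw]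
      refine (norm_fac_le_fine hM hpM hpM' hη hη1 hδ0 hδ1 h5 hnz).trans
        (Real.exp_le_exp.2 (le_of_eq ?_))
      ring
  · simp only [hm, if_false, zero_add]
    rw [bb_of_ne hm]
    have hm1 : 1 ≤ m.natAbs := by omega
    have hnz : ‖zt lam k (jj lam k q + m) q‖ ≤ Real.exp (-X - 25 / 4 * m.natAbs) := by
      rw [norm_zt hlam2]
      apply Real.exp_le_exp.2
      set u := lam ^ k * q.1.im / 5 with hu'
      have a1 : |u - round u| ≤ 1 / 2 := abs_sub_round u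
      have e1 : (jj lam k q : ℝ) = (round u : ℝ) := rfl
      have e2 : (m.natAbs : ℝ) = |(m : ℝ)| := by rw [Nat.cast_natAbs, Int.cast_abs]
      have h1 : |(m : ℝ)| - 1 / 2 ≤ |u - ((jj lam k q + m : ℤ) : ℝ)| := by
        push_cast
        rw [e1]
        have : (m : ℝ) = (u - round u) - (u - ((round u : ℝ) + m)) := by ring
        have h2 : |(m : ℝ)| ≤ |u - round u| + |u - ((round u : ℝ) + m)| := by
          conv_lhs => rw [this]
          exact abs_sub _ _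
        linarith
      have hm1' : (1 : ℝ) ≤ |(m : ℝ)| := by
        rw [← e2]; exact_mod_cast hm1
      have h3 : (|(m : ℝ)| - 1 / 2) ^ 2 ≤ (u - ((jj lam k q + m : ℤ) : ℝ)) ^ 2 := by
        rw [← sq_abs (u - _)]
        exact pow_le_pow_left₀ (by linarith) h1 2
      rw [e2]
      nlinarith
    refine (norm_fac_le_other hM hpM hpM' hη hη1 hδ0 hδ1 hX.le hm1 hnz).trans
      (Real.exp_le_exp.2 ?_)
    have h1 := exp_neg_le_ww hX.le
    have h2 : (0 : ℝ) ≤ 26 / 1000 * (1 / 2) ^ m.natAbs := by positivity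
    apply mul_le_mul_of_nonneg_left _ hM0
    calc 26 / 1000 * (1 / 2) ^ m.natAbs * Real.exp (-X)
        ≤ 26 / 1000 * (1 / 2) ^ m.natAbs * ww X := mul_le_mul_of_nonneg_left h1 h2
      _ = _ := by ring

/-- **Existence of functions**: for all large `M` and every point of the base there is a
holomorphic function dominated by `e^(M φ)` which does not vanish at the point. -/
theorem exists_fun {CΨ Λ : ℝ} {Ψ : ℂ → ℝ} (hΨ : IsPsi CΨ Λ Ψ) {η : ℝ} (hη : 0 < η)
    (hη1 : η ≤ Real.exp (-200))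
    (hin : ∀ ζ : ℂ, ‖ζ‖ ≤ 1 → ‖ζ‖ ^ 2 ≤ Real.exp (-(19 / 2)) → 0 ≤ Ψ ζ)
    (hout : ∀ ζ : ℂ, ‖ζ‖ ≤ 1 → Real.exp (-(19 / 2)) ≤ ‖ζ‖ ^ 2 →
      Real.log (‖ζ - ((Real.exp (-4) : ℝ) : ℂ)‖ ^ 2 + η ^ 2) + 200 ≤ Ψ ζ)
    {lam : ℝ} (hlam : 3 ≤ lam) {M : ℝ} (hM : 100 ≤ M) {q0 : ℂ × ℂ} (hq0 : q0 ∈ DD) :
    ∃ f : ℂ × ℂ → ℂ, DifferentiableOn ℂ f DD ∧
      (∃ C : ℝ, ∀ q ∈ DD, ‖f q‖ ≤ C * Real.exp (M * phi Ψ lam (1 / (4 * Real.log lam)) q)) ∧
      f q0 ≠ 0 := by
  have hlam2 : 2 ≤ lam := by linarith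
  have hlog : 0 < Real.log lam := Real.log_pos (by linarith)
  have hM0 : 0 ≤ M := by linarith
  set p : ℕ := ⌈M⌉₊ with hp
  have hpM : M ≤ p := Nat.le_ceil M
  have hpM' : (p : ℝ) ≤ M + 1 := (Nat.ceil_lt_add_one hM0).le
  have hp1 : 1 ≤ p := by
    have : (1 : ℝ) ≤ p := by linarith
    exact_mod_cast this
  set d0 : ℝ := (Real.exp 4 * η) ^ (2 * p) with hd0d
  have h4η : Real.exp 4 * η ≤ Real.exp (-196) := by
    calc Real.exp 4 * η ≤ Real.exp 4 * Real.exp (-200) := by gcongr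
      _ = Real.exp (-196) := by rw [← Real.exp_add]; norm_num
  have h4η1 : Real.exp 4 * η < 1 := by
    refine lt_of_le_of_lt h4η ?_
    rw [Real.exp_lt_one_iff]; norm_num
  have hd0 : 0 < d0 := by positivity
  have hd01 : d0 < 1 := pow_lt_one₀ (by positivity) h4η1 (by omega)
  -- the choice of the factors
  have hch : ∀ i : ℕ × ℤ, ∃ d : ℝ, (d = 0 ∨ d = d0) ∧ fac p d (zt lam i.1 i.2 q0) ≠ 0 :=
    fun i => exists_fac_ne_zero hd0 hd01 _
  choose δ hδ hδ' using hch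
  set ε := 1 / (4 * Real.log lam) with hε
  have hε0 : 0 < ε := by positivity
  set m' : ℕ := ⌈M * ε⌉₊ with hm'
  have hm'1 : M * ε ≤ m' := Nat.le_ceil _
  have hden : ∀ q ∈ DD, 1 + rho q ≤ ‖q.2 + Complex.I‖ := by
    intro q hq
    have h1 : (q.2 + Complex.I).im ≤ ‖q.2 + Complex.I‖ := Complex.im_le_norm _
    have h2 : (q.2 + Complex.I).im = q.2.im + 1 := by simp
    have h3 : rho q = q.2.im - q.1.im ^ 2 := rfl
    nlinarith [sq_nonneg q.1.im]
  have hne : ∀ q ∈ DD, q.2 + Complex.I ≠ 0 := by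
    intro q hq h
    have h1 := hden q hq
    have h2 : 0 < rho q := hq
    rw [h, norm_zero] at h1
    linarith
  refine ⟨fun q => pp p lam δ q * ((q.2 + Complex.I) ^ m')⁻¹, ?_, ?_, ?_⟩
  · apply (differentiableOn_pp hlam2 hd01 hδ).mul
    apply DifferentiableOn.inv
    · fun_prop
    · intro q hq
      exact pow_ne_zero _ (hne q hq)
  · refine ⟨Real.exp (M * ε * Real.log 5 + 3 * M / 2), fun q hq => ?_⟩
    have hr : 0 < rho q := hq
    have h1 := norm_pp_le hΨ hM hpM hpM' hη hη1 hd0.le le_rfl hd01 hin hout hlam hδ hq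
    have h2 := (ww_sum hlam hr).2
    set S := ∑' k, Sk Ψ lam k q with hS
    set Wt := ∑' k : ℕ, ww (lam ^ (2 * k) * rho q) with hWt
    have h3 : ‖((q.2 + Complex.I) ^ m')⁻¹‖ ≤ Real.exp (-(m' * Real.log (1 + rho q))) := by
      rw [norm_inv, norm_pow, Real.exp_neg]
      apply inv_anti₀ (Real.exp_pos _)
      rw [mul_comm, Real.exp_mul, Real.exp_log (by linarith), Real.rpow_natCast]
      exact pow_le_pow_left₀ (by linarith) (hden q hq) _
    have h4 : phi Ψ lam ε q = -ε * Real.log (rho q) + S := rfl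
    rw [norm_mul, h4, ← Real.exp_add]
    calc ‖pp p lam δ q‖ * ‖((q.2 + Complex.I) ^ m')⁻¹‖
        ≤ Real.exp (M * S + M / 2 * Wt) * Real.exp (-(m' * Real.log (1 + rho q))) := by
          gcongr
      _ = Real.exp (M * S + M / 2 * Wt - m' * Real.log (1 + rho q)) := by
          rw [← Real.exp_add]; ring_nf
      _ ≤ _ := by
          apply Real.exp_le_exp.2
          have h5 : M / 2 * Wt ≤ M / 2 * (max 0 (Real.log (5 / rho q) / (2 * Real.log lam)) + 3) := by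
            gcongr
          have hεl : Real.log (5 / rho q) / (2 * Real.log lam) = 2 * ε * Real.log (5 / rho q) := by
            rw [hε]; field_simp; ring
          rw [hεl] at h5
          have hlog1 : Real.log (5 / rho q) = Real.log 5 - Real.log (rho q) :=
            Real.log_div (by norm_num) hr.ne'
          have hlogp : 0 ≤ Real.log (1 + rho q) := Real.log_nonneg (by linarith)
          have hl5 : 0 ≤ Real.log 5 := Real.log_nonneg (by norm_num)
          have hMε : 0 ≤ M * ε := by positivity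
          have hm0 : (0 : ℝ) ≤ m' := by positivity
          rcases le_total (Real.log (5 / rho q)) 0 with h6 | h6
          · have h7 : max 0 (2 * ε * Real.log (5 / rho q)) = 0 := by
              apply max_eq_left
              nlinarith
            rw [h7] at h5
            -- `ρ ≥ 5`
            have h8 : Real.log (rho q) ≤ Real.log (1 + rho q) :=
              Real.log_le_log hr (by linarith)
            have h9 : M * ε * Real.log (rho q) ≤ m' * Real.log (1 + rho q) := by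
              calc M * ε * Real.log (rho q) ≤ M * ε * Real.log (1 + rho q) := by gcongr
                _ ≤ m' * Real.log (1 + rho q) := by gcongr
            nlinarith [mul_nonneg hMε hl5]
          · have h7 : max 0 (2 * ε * Real.log (5 / rho q)) = 2 * ε * Real.log (5 / rho q) := by
              apply max_eq_right
              positivity
            rw [h7, hlog1] at h5
            have h8 : 0 ≤ m' * Real.log (1 + rho q) := by positivity
            nlinarith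
  · refine mul_ne_zero ?_ (inv_ne_zero (pow_ne_zero _ (hne q0 hq0)))
    exact tprod_ne_zero (summable_pp hlam2 hd01 hδ hq0) hδ'

end Vale.Agent.P250.H3
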