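import Vale.Agent.P250.H3.Defs
import Vale.Agent.P250.H3.Prod
import Vale.Agent.P250.Bdl.B3
import Vale.Agent.P250.H154.Main
import Mathlib.Analysis.Analytic.Order

/-!
P250 (helper3): the order of degeneracy of the bounded holomorphic functions, its invariance
under biholomorphic maps, and its finiteness for the disc bundles.
-/

set_option maxSynthPendingDepth 3

namespace Vale.Agent.P250.H3

open Set Filter Topology Metric Asymptotics Vale.Agent.P250 Vale.Agent.P250.G Vale.Agent.P250.H154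

section general

variable {E : Type*} [NormedAddCommGroup E] [NormedSpace ℂ E]
variable {E' : Type*} [NormedAddCommGroup E'] [NormedSpace ℂ E']

/-- bounded holomorphic functions -/
def BH (M : Set E) (F : E → ℂ) : Prop :=
  DifferentiableOn ℂ F M ∧ ∃ C : ℝ, ∀ x ∈ M, ‖F x‖ ≤ C

/-- `M` is degenerate of order `k`: along some immersed holomorphic disc all bounded holomorphic
functions are constant up to order `k`. -/
def Deg (M : Set E) (k : ℕ) : Prop :=
  ∃ (γ : ℂ → E) (r : ℝ), 0 < r ∧ DifferentiableOn ℂ γ (ball 0 r) ∧ MapsTo γ (ball 0 r) M ∧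
    deriv γ 0 ≠ 0 ∧ ∀ F : E → ℂ, BH M F →
      (fun t : ℂ => F (γ t) - F (γ 0)) =O[𝓝 0] (fun t : ℂ => t ^ (k + 1))

lemma Deg.mono {M : Set E} {k l : ℕ} (h : Deg M l) (hkl : k ≤ l) : Deg M k := by
  obtain ⟨γ, r, hr, hγ, hm, hd, hF⟩ := h
  refine ⟨γ, r, hr, hγ, hm, hd, fun F hFM => (hF F hFM).trans ?_⟩
  have h1 : (fun t : ℂ => t ^ (l + 1)) = fun t => t ^ (k + 1) * t ^ (l - k) := by
    funext t
    rw [← pow_add]
    congr 1
    omega
  rw [h1]
  have h2 : (fun t : ℂ => t ^ (l - k)) =O[𝓝 0] (fun _ : ℂ => (1 : ℂ)) := by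
    have : Continuous (fun t : ℂ => t ^ (l - k)) := by fun_prop
    exact this.continuousAt.isBigO_one ℂ
  have h3 := (isBigO_refl (fun t : ℂ => t ^ (k + 1)) (𝓝 0)).mul h2
  simpa using h3

lemma BH.comp {M : Set E} {M' : Set E'} {F : E' → ℂ} (hF : BH M' F) {Φ : E → E'}
    (hΦ : DifferentiableOn ℂ Φ M) (hm : MapsTo Φ M M') : BH M (fun x => F (Φ x)) := by
  obtain ⟨h1, C, hC⟩ := hF
  exact ⟨h1.comp hΦ hm, C, fun x hx => hC _ (hm hx)⟩

lemma Deg.map {M : Set E} {M' : Set E'} (hM' : IsOpen M') {k : ℕ}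
    (h : Deg M k) (hb : Biholomorphic M M') : Deg M' k := by
  obtain ⟨γ, r, hr, hγ, hm, hd, hF⟩ := h
  obtain ⟨Φ, G, hΦ, hG, hΦm, hGm, hGΦ, hΦG⟩ := hb
  have h0 : (0 : ℂ) ∈ ball (0 : ℂ) r := mem_ball_self hr
  refine ⟨fun t => Φ (γ t), r, hr, hΦ.comp hγ hm, hΦm.comp hm, ?_, ?_⟩
  · intro hz
    apply hd
    have h1 : DifferentiableAt ℂ (fun t => Φ (γ t)) 0 :=
      (hΦ.comp hγ hm).differentiableAt (isOpen_ball.mem_nhds h0)
    have h2 : HasDerivAt (fun t => Φ (γ t)) 0 0 := by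
      have := h1.hasDerivAt
      rwa [hz] at this
    have h3 : DifferentiableAt ℂ G (Φ (γ 0)) :=
      hG.differentiableAt (hM'.mem_nhds (hΦm (hm h0)))
    have h4 := h3.hasFDerivAt.comp_hasDerivAt (0 : ℂ) h2
    rw [map_zero] at h4
    have h5 : (fun t => G (Φ (γ t))) =ᶠ[𝓝 0] γ := by
      filter_upwards [isOpen_ball.mem_nhds h0] with t ht
      exact hGΦ _ (hm ht)
    have h6 : HasDerivAt γ 0 0 := h4.congr_of_eventuallyEq h5.symm
    exact h6.deriv
  · intro F hFM
    exact hF _ (hFM.comp hΦ hΦm)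

lemma Biholomorphic.symm {M : Set E} {M' : Set E'} (h : Biholomorphic M M') :
    Biholomorphic M' M := by
  obtain ⟨F, G, a, b, c, d, e, f⟩ := h
  exact ⟨G, F, b, a, d, c, f, e⟩

lemma SeparatesPoints.map {M : Set E} {M' : Set E'} (h : SeparatesPoints M)
    (hb : Biholomorphic M M') : SeparatesPoints M' := by
  obtain ⟨Φ, G, hΦ, hG, hΦm, hGm, hGΦ, hΦG⟩ := hb
  intro p hp q hq hpq
  have hne : G p ≠ G q := by
    intro h1
    apply hpq
    rw [← hΦG p hp, ← hΦG q hq, h1]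
  obtain ⟨F, hF1, hF2, hF3⟩ := h (G p) (hGm hp) (G q) (hGm hq) hne
  have := BH.comp (M := M') (M' := M) ⟨hF1, hF2⟩ hG hGm
  exact ⟨_, this.1, this.2, hF3⟩

lemma Deg.of_flat {M : Set E} (hM : IsOpen M) {p v : E} (hp : p ∈ M) (hv : v ≠ 0) {K : ℕ}
    (h : FlatAt M K p v) : Deg M K := by
  have hc : Continuous (fun t : ℂ => p + t • v) := by fun_prop
  have h1 : (fun t : ℂ => p + t • v) ⁻¹' M ∈ 𝓝 (0 : ℂ) := by
    apply hc.continuousAt.preimage_mem_nhds
    simpa using hM.mem_nhds hp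
  obtain ⟨r, hr, hrM⟩ := Metric.mem_nhds_iff.1 h1
  have hder : ∀ t : ℂ, HasDerivAt (fun t : ℂ => p + t • v) v t := fun t => by
    simpa using ((hasDerivAt_id t).smul_const v).const_add p
  refine ⟨fun t => p + t • v, r, hr, fun t _ => (hder t).differentiableAt.differentiableWithinAt,
    hrM, ?_, ?_⟩
  · rw [(hder 0).deriv]; exact hv
  · intro F hF
    set φ : ℂ → ℂ := fun t => F (p + t • v) with hφ
    have hd : DifferentiableOn ℂ φ (ball 0 r) :=
      hF.1.comp (fun t _ => (hder t).differentiableAt.differentiableWithinAt) hrM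
    have han : AnalyticAt ℂ φ 0 := hd.analyticAt (isOpen_ball.mem_nhds (mem_ball_self hr))
    set g : ℂ → ℂ := fun t => φ t - φ 0 with hg
    have hgan : AnalyticAt ℂ g 0 := han.sub analyticAt_const
    have hz : ∀ i < K + 1, iteratedDeriv i g 0 = 0 := by
      intro i hi
      rcases i with _ | i
      · simp [hg]
      · have h2 : deriv g = deriv φ := by
          funext t
          rw [hg]
          exact deriv_sub_const (φ 0)
        rw [iteratedDeriv_succ', h2, ← iteratedDeriv_succ']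
        exact h F hF.1 hF.2 (i + 1) (by omega) (by omega)
    have hord := (natCast_le_analyticOrderAt_iff_iteratedDeriv_eq_zero hgan).2 hz
    obtain ⟨u, hu, hgu⟩ := (natCast_le_analyticOrderAt hgan).1 hord
    have hu1 : u =O[𝓝 0] (fun _ : ℂ => (1 : ℂ)) := hu.continuousAt.isBigO_one ℂ
    have h3 : g =O[𝓝 0] (fun t : ℂ => t ^ (K + 1) * 1) := by
      have h4 : (fun t : ℂ => t ^ (K + 1) * u t) =O[𝓝 0] (fun t : ℂ => t ^ (K + 1) * 1) :=
        (isBigO_refl _ _).mul hu1
      refine IsBigO.congr' h4 ?_ (EventuallyEq.refl _ _)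
      filter_upwards [hgu] with t ht
      rw [ht]; simp
    simpa using h3

end general

end Vale.Agent.P250.H3
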