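import Vale.Agent.P250.H3.Psi
import Mathlib.Analysis.SpecialFunctions.Complex.LogBounds
import Mathlib.Analysis.Complex.Exponential

/-!
P250 (helper3): the elementary factor `h(ζ) = (((1 - t)^(2p) - d) / (1 - d)) e^(2 p t)`,
`t = e^4 ζ`, and its bounds.
-/

namespace Vale.Agent.P250.H3

open Set Filter Topology Metric

/-- the elementary factor -/
noncomputable def fac (p : ℕ) (d : ℝ) (ζ : ℂ) : ℂ :=
  ((1 - (Real.exp 4 : ℝ) * ζ) ^ (2 * p) - (d : ℂ)) / (1 - (d : ℂ)) *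
    Complex.exp (2 * p * ((Real.exp 4 : ℝ) * ζ))

lemma differentiable_fac (p : ℕ) (d : ℝ) : Differentiable ℂ (fac p d) := by
  unfold fac
  fun_prop

lemma fac_zero (p : ℕ) {d : ℝ} (hd : d < 1) : fac p d 0 = 1 := by
  unfold fac
  have : (1 : ℂ) - (d : ℂ) ≠ 0 := by
    rw [sub_ne_zero]
    exact_mod_cast hd.ne'
  simp [this]

lemma fac_ne_zero {p : ℕ} {d : ℝ} (hd : d < 1) {ζ : ℂ}
    (h : (1 - (Real.exp 4 : ℝ) * ζ) ^ (2 * p) ≠ (d : ℂ)) : fac p d ζ ≠ 0 := by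
  unfold fac
  refine mul_ne_zero (div_ne_zero (sub_ne_zero.2 h) ?_) (Complex.exp_ne_zero _)
  rw [sub_ne_zero]
  exact_mod_cast hd.ne'

/-- one of the two factors does not vanish -/
lemma exists_fac_ne_zero {p : ℕ} {d0 : ℝ} (h0 : 0 < d0) (h1 : d0 < 1) (ζ : ℂ) :
    ∃ d : ℝ, (d = 0 ∨ d = d0) ∧ fac p d ζ ≠ 0 := by
  by_cases h : (1 - (Real.exp 4 : ℝ) * ζ) ^ (2 * p) = ((0 : ℝ) : ℂ)
  · refine ⟨d0, Or.inr rfl, fac_ne_zero h1 ?_⟩
    rw [h]
    exact_mod_cast h0.ne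
  · exact ⟨0, Or.inl rfl, fac_ne_zero (by norm_num) h⟩

lemma exists_fac_sub_one (p : ℕ) {d : ℝ} (hd : d < 1) :
    ∃ C : ℝ, 0 ≤ C ∧ ∀ ζ : ℂ, ‖ζ‖ ≤ 1 → ‖fac p d ζ - 1‖ ≤ C * ‖ζ‖ := by
  have hdf := differentiable_fac p d
  have hc : Continuous (deriv (fac p d)) := (hdf.contDiff (n := 1)).continuous_deriv le_rfl
  obtain ⟨C, hC⟩ := (isCompact_closedBall (0 : ℂ) 1).exists_bound_of_continuousOn hc.continuousOn
  refine ⟨|C|, abs_nonneg _, fun ζ hζ => ?_⟩
  have h1 := (convex_closedBall (0 : ℂ) 1).norm_image_sub_le_of_norm_deriv_le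
    (f := fac p d) (C := |C|) (x := 0) (y := ζ)
    (fun x _ => hdf x) (fun x hx => (hC x hx).trans (le_abs_self C))
    (by simp) (by simpa using hζ)
  rwa [fac_zero p hd, sub_zero] at h1

lemma norm_exp_sub_one_le' (z : ℂ) : ‖Complex.exp z - 1‖ ≤ ‖z‖ * Real.exp ‖z‖ := by
  have := Complex.norm_exp_sub_sum_le_norm_mul_exp z 1
  simpa using this

/-- the bound near the origin -/
lemma norm_fac_le {p : ℕ} (hp : 1 ≤ p) {d : ℝ} (hd : 0 ≤ d)
    (hd1 : d ≤ Real.exp (-(390 * p : ℝ))) {ζ : ℂ} {x : ℝ}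
    (hx : Real.exp 4 * ‖ζ‖ = x) (hx2 : x ≤ 1 / 2) :
    ‖fac p d ζ‖ ≤ Real.exp (p * (x ^ 2 / (1 - x) + x / 1000)) := by
  set t : ℂ := (Real.exp 4 : ℝ) * ζ with ht
  have hp1 : (1 : ℝ) ≤ p := by exact_mod_cast hp
  have htx : ‖t‖ = x := by
    rw [ht, norm_mul, Complex.norm_real, Real.norm_eq_abs, abs_of_pos (Real.exp_pos _), hx]
  have hx0 : 0 ≤ x := by rw [← htx]; exact norm_nonneg _
  have ht1 : ‖-t‖ < 1 := by rw [norm_neg, htx]; linarith
  set E : ℂ := Complex.log (1 + -t) - -t with hE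
  have hEn : ‖E‖ ≤ x ^ 2 / (1 - x) / 2 := by
    have := Complex.norm_log_one_add_sub_self_le ht1
    rw [norm_neg, htx] at this
    rw [hE]
    calc _ ≤ x ^ 2 * (1 - x)⁻¹ / 2 := this
      _ = _ := by ring
  have h1t : (1 : ℂ) + -t ≠ 0 := by
    intro h
    have : ‖-t‖ = 1 := by
      rw [show -t = -1 + (1 + -t) by ring, h]; simp
    linarith
  have hexpE : (1 - t) * Complex.exp t = Complex.exp E := by
    rw [hE, sub_neg_eq_add, Complex.exp_add, Complex.exp_log h1t]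
    ring
  set P : ℂ := Complex.exp (2 * p * E) with hP
  set Q : ℂ := Complex.exp (2 * p * t) with hQ
  have hPt : (1 - t) ^ (2 * p) * Q = P := by
    have h1 : Q = Complex.exp t ^ (2 * p) := by
      rw [hQ, ← Complex.exp_nat_mul]
      push_cast
      ring_nf
    have h2 : P = Complex.exp E ^ (2 * p) := by
      rw [hP, ← Complex.exp_nat_mul]
      push_cast
      ring_nf
    rw [h1, h2, ← hexpE, mul_pow]
  have hd12 : d ≤ 1 / 2 := by
    refine hd1.trans ?_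
    have h1 : Real.exp (-(390 * p : ℝ)) ≤ Real.exp (-1) := Real.exp_le_exp.2 (by linarith)
    have := Real.exp_neg_one_lt_half
    linarith
  have h1d : (1 : ℂ) - (d : ℂ) ≠ 0 := by
    rw [sub_ne_zero]
    have : d ≠ 1 := by linarith
    exact_mod_cast this.symm
  have hfac : fac p d ζ = P + (d : ℂ) / (1 - d) * (P - Q) := by
    unfold fac
    rw [← ht, ← hQ, sub_div, sub_mul, div_mul_eq_mul_div, hPt]
    field_simp
    ring
  have hG : 2 * p * ‖E‖ ≤ p * (x ^ 2 / (1 - x)) := by nlinarith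
  have hg2 : x ^ 2 / (1 - x) ≤ x := by
    rw [div_le_iff₀ (by linarith)]
    nlinarith
  have n1 : ‖P‖ ≤ Real.exp (p * (x ^ 2 / (1 - x))) := by
    rw [hP]
    refine (Complex.norm_exp_le_exp_norm _).trans (Real.exp_le_exp.2 ?_)
    refine le_trans (le_of_eq ?_) hG
    simp
  have n2 : ‖P - 1‖ ≤ p * x * Real.exp (p * x) := by
    have h := norm_exp_sub_one_le' (2 * p * E)
    have h2 : ‖2 * (p : ℂ) * E‖ ≤ p * x := by
      have : ‖2 * (p : ℂ) * E‖ = 2 * p * ‖E‖ := by simp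
      rw [this]
      refine hG.trans (mul_le_mul_of_nonneg_left hg2 (by positivity))
    exact h.trans (mul_le_mul h2 (Real.exp_le_exp.2 h2) (Real.exp_pos _).le (by positivity))
  have n3 : ‖Q - 1‖ ≤ 2 * (p * x) * Real.exp (2 * (p * x)) := by
    have h := norm_exp_sub_one_le' (2 * p * t)
    have h2 : ‖2 * (p : ℂ) * t‖ = 2 * (p * x) := by
      rw [norm_mul, norm_mul, htx]; simp; ring
    rw [h2] at h
    exact h
  have n4 : ‖P - Q‖ ≤ 3 * (p * x) * Real.exp p := by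
    have e1 : Real.exp (p * x) ≤ Real.exp p := Real.exp_le_exp.2 (by nlinarith)
    have e2 : Real.exp (2 * (p * x)) ≤ Real.exp p := Real.exp_le_exp.2 (by nlinarith)
    have hpx : 0 ≤ p * x := by positivity
    calc ‖P - Q‖ = ‖(P - 1) - (Q - 1)‖ := by ring_nf
      _ ≤ ‖P - 1‖ + ‖Q - 1‖ := norm_sub_le _ _
      _ ≤ p * x * Real.exp (p * x) + 2 * (p * x) * Real.exp (2 * (p * x)) := add_le_add n2 n3
      _ ≤ p * x * Real.exp p + 2 * (p * x) * Real.exp p := by gcongr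
      _ = _ := by ring
  have n5 : ‖(d : ℂ) / (1 - d)‖ ≤ 2 * d := by
    rw [norm_div, Complex.norm_real, Real.norm_eq_abs, abs_of_nonneg hd]
    have : ‖(1 : ℂ) - d‖ = 1 - d := by
      rw [← Complex.ofReal_one, ← Complex.ofReal_sub, Complex.norm_real, Real.norm_eq_abs,
        abs_of_pos (by linarith)]
    rw [this, div_le_iff₀ (by linarith)]
    nlinarith
  have n6 : 6 * d * Real.exp p ≤ 1 / 1000 := by
    have h1 : d * Real.exp p ≤ Real.exp (-10) := by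
      calc d * Real.exp p ≤ Real.exp (-(390 * p : ℝ)) * Real.exp p := by gcongr
        _ = Real.exp (-(390 * p : ℝ) + p) := by rw [Real.exp_add]
        _ ≤ Real.exp (-10) := Real.exp_le_exp.2 (by linarith)
    have h2 : Real.exp (-10) ≤ 1 / 6000 := by
      rw [Real.exp_neg, ← one_div]
      apply one_div_le_one_div_of_le (by norm_num)
      have h3 := Real.exp_one_gt_d9
      have h4 : Real.exp 10 = Real.exp 1 ^ 10 := by rw [← Real.exp_nat_mul]; norm_num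
      rw [h4]
      calc (6000 : ℝ) ≤ 2.5 ^ 10 := by norm_num
        _ ≤ _ := pow_le_pow_left₀ (by norm_num) (by linarith) 10
    nlinarith
  rw [hfac]
  have hG0 : 0 ≤ x ^ 2 / (1 - x) := div_nonneg (by positivity) (by linarith)
  have hone : 1 ≤ Real.exp (p * (x ^ 2 / (1 - x))) := Real.one_le_exp (by positivity)
  calc ‖P + (d : ℂ) / (1 - d) * (P - Q)‖ ≤ ‖P‖ + ‖(d : ℂ) / (1 - d)‖ * ‖P - Q‖ := by
        refine (norm_add_le _ _).trans ?_
        rw [norm_mul]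
    _ ≤ Real.exp (p * (x ^ 2 / (1 - x))) + 2 * d * (3 * (p * x) * Real.exp p) := by
        gcongr
    _ = Real.exp (p * (x ^ 2 / (1 - x))) + (p * x) * (6 * d * Real.exp p) := by ring
    _ ≤ Real.exp (p * (x ^ 2 / (1 - x))) + (p * x) * (1 / 1000) := by gcongr
    _ ≤ Real.exp (p * (x ^ 2 / (1 - x))) * (1 + p * (x / 1000)) := by nlinarith [mul_nonneg (by positivity : (0:ℝ) ≤ p) hx0]
    _ ≤ Real.exp (p * (x ^ 2 / (1 - x))) * Real.exp (p * (x / 1000)) := by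
        gcongr
        have := Real.add_one_le_exp (p * (x / 1000))
        linarith
    _ = _ := by rw [← Real.exp_add]; ring_nf

lemma exp_quarter : Real.exp (-(3 / 4)) ≤ 473 / 1000 := by
  have h3 := Real.exp_one_gt_d9
  have h1 : Real.exp (3 / 4) ^ 4 = Real.exp 1 ^ 3 := by
    rw [← Real.exp_nat_mul, ← Real.exp_nat_mul]; norm_num
  have h2 : (1000 / 473 : ℝ) ^ 4 ≤ Real.exp (3 / 4) ^ 4 := by
    rw [h1]
    calc (1000 / 473 : ℝ) ^ 4 ≤ 2.7182818283 ^ 3 := by norm_num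
      _ ≤ _ := pow_le_pow_left₀ (by norm_num) (by linarith) 3
  have h4 : (1000 / 473 : ℝ) ≤ Real.exp (3 / 4) :=
    le_of_pow_le_pow_left₀ (by norm_num) (Real.exp_pos _).le h2
  rw [Real.exp_neg, inv_le_comm₀ (Real.exp_pos _) (by norm_num)]
  linarith

lemma exp_four_le : Real.exp 4 ≤ 55 := by
  have h3 := Real.exp_one_lt_d9
  have h4 : Real.exp 4 = Real.exp 1 ^ 4 := by rw [← Real.exp_nat_mul]; norm_num
  rw [h4]
  calc Real.exp 1 ^ 4 ≤ 2.7182818286 ^ 4 := pow_le_pow_left₀ (Real.exp_pos _).le (by linarith) 4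
    _ ≤ 55 := by norm_num

/-- (A) the bound by the well on the unit disc -/
lemma norm_fac_le_well {p : ℕ} {M : ℝ} (hM : 100 ≤ M) (hpM : M ≤ p) (hpM' : (p : ℝ) ≤ M + 1)
    {η d : ℝ} (hη : 0 < η) (hη1 : η ≤ Real.exp (-200)) (hd : 0 ≤ d)
    (hd1 : d ≤ (Real.exp 4 * η) ^ (2 * p)) {Ψ : ℂ → ℝ}
    (hin : ∀ ζ : ℂ, ‖ζ‖ ≤ 1 → ‖ζ‖ ^ 2 ≤ Real.exp (-(19 / 2)) → 0 ≤ Ψ ζ)
    (hout : ∀ ζ : ℂ, ‖ζ‖ ≤ 1 → Real.exp (-(19 / 2)) ≤ ‖ζ‖ ^ 2 →
      Real.log (‖ζ - ((Real.exp (-4) : ℝ) : ℂ)‖ ^ 2 + η ^ 2) + 200 ≤ Ψ ζ)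
    {ζ : ℂ} (hζ : ‖ζ‖ ≤ 1) :
    ‖fac p d ζ‖ ≤ Real.exp (M * (Ψ ζ + 56 / 125)) := by
  have hp1 : 1 ≤ p := by
    have : (1 : ℝ) ≤ p := by linarith
    exact_mod_cast this
  have h4η : Real.exp 4 * η ≤ Real.exp (-196) := by
    calc Real.exp 4 * η ≤ Real.exp 4 * Real.exp (-200) := by gcongr
      _ = Real.exp (-196) := by rw [← Real.exp_add]; norm_num
  have hd390 : d ≤ Real.exp (-(390 * p : ℝ)) := by
    refine hd1.trans ?_
    calc (Real.exp 4 * η) ^ (2 * p) ≤ Real.exp (-196) ^ (2 * p) :=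
          pow_le_pow_left₀ (by positivity) h4η _
      _ = Real.exp (-(392 * p : ℝ)) := by
          rw [← Real.exp_nat_mul]; push_cast; ring_nf
      _ ≤ _ := Real.exp_le_exp.2 (by
          have : (0 : ℝ) ≤ p := by positivity
          linarith)
  rcases le_total (‖ζ‖ ^ 2) (Real.exp (-(19 / 2))) with h | h
  · have h0 := hin ζ hζ h
    have hζ1 : ‖ζ‖ ≤ Real.exp (-(19 / 4)) := by
      have e : Real.exp (-(19 / 2)) = Real.exp (-(19 / 4)) ^ 2 := by
        rw [← Real.exp_nat_mul]; norm_num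
      rw [e] at h
      exact le_of_pow_le_pow_left₀ (by norm_num) (Real.exp_pos _).le h
    have hx : Real.exp 4 * ‖ζ‖ ≤ 473 / 1000 := by
      calc Real.exp 4 * ‖ζ‖ ≤ Real.exp 4 * Real.exp (-(19 / 4)) := by gcongr
        _ = Real.exp (-(3 / 4)) := by rw [← Real.exp_add]; norm_num
        _ ≤ _ := exp_quarter
    have h1 := norm_fac_le hp1 hd hd390 (ζ := ζ) rfl (by linarith)
    refine h1.trans (Real.exp_le_exp.2 ?_)
    set x := Real.exp 4 * ‖ζ‖ with hx'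
    have hx0 : 0 ≤ x := by positivity
    have h2 : x ^ 2 / (1 - x) ≤ 4246 / 10000 := by
      rw [div_le_iff₀ (by linarith)]
      nlinarith
    have h3 : x ^ 2 / (1 - x) + x / 1000 ≤ 4252 / 10000 := by linarith
    calc (p : ℝ) * (x ^ 2 / (1 - x) + x / 1000) ≤ (M + 1) * (4252 / 10000) := by
          apply mul_le_mul hpM' h3 _ (by linarith)
          have : 0 ≤ x ^ 2 / (1 - x) := div_nonneg (by positivity) (by linarith)
          positivity
      _ ≤ M * (56 / 125) := by nlinarith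
      _ ≤ M * (Ψ ζ + 56 / 125) := by nlinarith
  · have h1 := hout ζ hζ h
    set L := Real.log (‖ζ - ((Real.exp (-4) : ℝ) : ℂ)‖ ^ 2 + η ^ 2) with hL
    have hpos : 0 < ‖ζ - ((Real.exp (-4) : ℝ) : ℂ)‖ ^ 2 + η ^ 2 := by positivity
    set t : ℂ := (Real.exp 4 : ℝ) * ζ with ht
    have htn : ‖t‖ ≤ 55 := by
      rw [ht, norm_mul, Complex.norm_real, Real.norm_eq_abs, abs_of_pos (Real.exp_pos _)]
      have := exp_four_le
      have := Real.exp_pos 4
      nlinarith [norm_nonneg ζ]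
    have h1t : ‖1 - t‖ ^ 2 + (Real.exp 4 * η) ^ 2 = Real.exp (8 + L) := by
      have e1 : (1 : ℂ) - t = -((Real.exp 4 : ℝ) : ℂ) * (ζ - ((Real.exp (-4) : ℝ) : ℂ)) := by
        have : ((Real.exp 4 : ℝ) : ℂ) * ((Real.exp (-4) : ℝ) : ℂ) = 1 := by
          rw [← Complex.ofReal_mul, ← Real.exp_add]; norm_num
        rw [ht]
        linear_combination -this
      have e2 : ‖1 - t‖ = Real.exp 4 * ‖ζ - ((Real.exp (-4) : ℝ) : ℂ)‖ := by
        rw [e1, norm_mul, norm_neg, Complex.norm_real, Real.norm_eq_abs,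
          abs_of_pos (Real.exp_pos _)]
      rw [e2, Real.exp_add, hL, Real.exp_log hpos]
      have : Real.exp 8 = Real.exp 4 ^ 2 := by rw [← Real.exp_nat_mul]; norm_num
      rw [this]
      ring
    have h1d : 1 / 2 ≤ 1 - d := by
      have h1 : Real.exp (-(390 * p : ℝ)) ≤ Real.exp (-1) := Real.exp_le_exp.2 (by
        have : (1 : ℝ) ≤ p := by exact_mod_cast hp1
        linarith)
      have := Real.exp_neg_one_lt_half
      linarith
    have n1 : ‖(1 - t) ^ (2 * p) - (d : ℂ)‖ ≤ Real.exp (p * (8 + L)) := by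
      calc ‖(1 - t) ^ (2 * p) - (d : ℂ)‖ ≤ ‖(1 - t) ^ (2 * p)‖ + ‖(d : ℂ)‖ := norm_sub_le _ _
        _ ≤ (‖1 - t‖ ^ 2) ^ p + ((Real.exp 4 * η) ^ 2) ^ p := by
            rw [norm_pow, pow_mul, Complex.norm_real, Real.norm_eq_abs, abs_of_nonneg hd,
              ← pow_mul (Real.exp 4 * η)]
            gcongr
        _ ≤ (‖1 - t‖ ^ 2 + (Real.exp 4 * η) ^ 2) ^ p :=
            pow_add_pow_le (by positivity) (by positivity) (by omega)
        _ = Real.exp (p * (8 + L)) := by rw [h1t, ← Real.exp_nat_mul]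
    have n2 : ‖Complex.exp (2 * p * t)‖ ≤ Real.exp (110 * p) := by
      refine (Complex.norm_exp_le_exp_norm _).trans (Real.exp_le_exp.2 ?_)
      have : ‖2 * (p : ℂ) * t‖ = 2 * p * ‖t‖ := by simp
      rw [this]
      have : (0 : ℝ) ≤ p := by positivity
      nlinarith
    have n3 : ‖(1 : ℂ) - d‖ = 1 - d := by
      rw [← Complex.ofReal_one, ← Complex.ofReal_sub, Complex.norm_real, Real.norm_eq_abs,
        abs_of_pos (by linarith)]
    have n4 : (1 - d)⁻¹ ≤ Real.exp 1 := by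
      rw [inv_le_comm₀ (by linarith) (Real.exp_pos _), ← Real.exp_neg]
      have := Real.exp_neg_one_lt_half
      linarith
    have hL2 : L ≤ 2 := by
      rw [hL, Real.log_le_iff_le_exp hpos]
      have h8 : ‖ζ - ((Real.exp (-4) : ℝ) : ℂ)‖ ≤ 2 := by
        calc ‖ζ - ((Real.exp (-4) : ℝ) : ℂ)‖ ≤ ‖ζ‖ + ‖((Real.exp (-4) : ℝ) : ℂ)‖ := norm_sub_le _ _
          _ ≤ 1 + 1 := by
            gcongr
            rw [Complex.norm_real, Real.norm_eq_abs, abs_of_pos (Real.exp_pos _),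
              Real.exp_le_one_iff]
            norm_num
          _ = 2 := by norm_num
      have h9 : η ≤ 1 := hη1.trans (by rw [Real.exp_le_one_iff]; norm_num)
      have h10 : (5 : ℝ) ≤ Real.exp 2 := by
        have h3 := Real.exp_one_gt_d9
        have h4 : Real.exp 2 = Real.exp 1 ^ 2 := by rw [← Real.exp_nat_mul]; norm_num
        rw [h4]
        nlinarith
      nlinarith [norm_nonneg (ζ - ((Real.exp (-4) : ℝ) : ℂ))]
    unfold fac
    rw [← ht, norm_mul, norm_div, n3, div_eq_mul_inv]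
    calc ‖(1 - t) ^ (2 * p) - (d : ℂ)‖ * (1 - d)⁻¹ * ‖Complex.exp (2 * p * t)‖
        ≤ Real.exp (p * (8 + L)) * Real.exp 1 * Real.exp (110 * p) := by
          gcongr
      _ = Real.exp (p * (8 + L) + 1 + 110 * p) := by rw [← Real.exp_add, ← Real.exp_add]
      _ ≤ Real.exp (M * (Ψ ζ + 56 / 125)) := by
          apply Real.exp_le_exp.2
          have h11 : ((p : ℝ) - M) * L ≤ 2 := by
            rcases le_total L 0 with hl | hl
            · nlinarith
            · nlinarith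
          nlinarith

/-- (B) the bound at the nearest centre on a fine scale -/
lemma norm_fac_le_fine {p : ℕ} {M : ℝ} (hM : 100 ≤ M) (hpM : M ≤ p) (hpM' : (p : ℝ) ≤ M + 1)
    {η d : ℝ} (hη : 0 < η) (hη1 : η ≤ Real.exp (-200)) (hd : 0 ≤ d)
    (hd1 : d ≤ (Real.exp 4 * η) ^ (2 * p)) {ζ : ℂ} {X : ℝ} (hX : 5 ≤ X)
    (hζ : ‖ζ‖ ≤ Real.exp (-X)) :
    ‖fac p d ζ‖ ≤ Real.exp (M * (56 / 125 * Real.exp (5 - X))) := by
  have hp1 : 1 ≤ p := by
    have : (1 : ℝ) ≤ p := by linarith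
    exact_mod_cast this
  have h4η : Real.exp 4 * η ≤ Real.exp (-196) := by
    calc Real.exp 4 * η ≤ Real.exp 4 * Real.exp (-200) := by gcongr
      _ = Real.exp (-196) := by rw [← Real.exp_add]; norm_num
  have hd390 : d ≤ Real.exp (-(390 * p : ℝ)) := by
    refine hd1.trans ?_
    calc (Real.exp 4 * η) ^ (2 * p) ≤ Real.exp (-196) ^ (2 * p) :=
          pow_le_pow_left₀ (by positivity) h4η _
      _ = Real.exp (-(392 * p : ℝ)) := by
          rw [← Real.exp_nat_mul]; push_cast; ring_nf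
      _ ≤ _ := Real.exp_le_exp.2 (by
          have : (0 : ℝ) ≤ p := by positivity
          linarith)
  have he1 : Real.exp (-1) ≤ 37 / 100 := by
    rw [Real.exp_neg, inv_le_comm₀ (Real.exp_pos _) (by norm_num)]
    have := Real.exp_one_gt_d9
    linarith
  set x := Real.exp 4 * ‖ζ‖ with hx
  set y := Real.exp (5 - X) with hy
  have hy1 : y ≤ 1 := by
    rw [hy, Real.exp_le_one_iff]; linarith
  have hy0 : 0 < y := Real.exp_pos _
  have hxy : x ≤ 37 / 100 * y := by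
    calc x ≤ Real.exp 4 * Real.exp (-X) := by rw [hx]; gcongr
      _ = Real.exp (-1) * y := by
          rw [hy, ← Real.exp_add, ← Real.exp_add]; ring_nf
      _ ≤ _ := by gcongr
  have hx0 : 0 ≤ x := by positivity
  have hx37 : x ≤ 37 / 100 := by nlinarith
  have h1 := norm_fac_le hp1 hd hd390 (ζ := ζ) hx.symm (by linarith)
  refine h1.trans (Real.exp_le_exp.2 ?_)
  have h2 : x ^ 2 / (1 - x) ≤ 6 / 10 * x := by
    rw [div_le_iff₀ (by linarith)]
    nlinarith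
  have h3 : x ^ 2 / (1 - x) + x / 1000 ≤ 7 / 10 * x := by linarith
  have h30 : 0 ≤ x ^ 2 / (1 - x) := div_nonneg (by positivity) (by linarith)
  calc (p : ℝ) * (x ^ 2 / (1 - x) + x / 1000) ≤ (M + 1) * (7 / 10 * x) := by
        apply mul_le_mul hpM' h3 (by positivity) (by linarith)
    _ ≤ (M + 1) * (7 / 10 * (37 / 100 * y)) := by gcongr
    _ ≤ M * (56 / 125 * y) := by nlinarith

/-- (C) the bound at the other centres -/
lemma norm_fac_le_other {p : ℕ} {M : ℝ} (hM : 100 ≤ M) (hpM : M ≤ p) (hpM' : (p : ℝ) ≤ M + 1)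
    {η d : ℝ} (hη : 0 < η) (hη1 : η ≤ Real.exp (-200)) (hd : 0 ≤ d)
    (hd1 : d ≤ (Real.exp 4 * η) ^ (2 * p)) {ζ : ℂ} {X : ℝ} (hX : 0 ≤ X) {m : ℕ} (hm : 1 ≤ m)
    (hζ : ‖ζ‖ ≤ Real.exp (-X - 25 / 4 * m)) :
    ‖fac p d ζ‖ ≤ Real.exp (M * (26 / 1000 * (1 / 2) ^ m * Real.exp (-X))) := by
  have hp1 : 1 ≤ p := by
    have : (1 : ℝ) ≤ p := by linarith
    exact_mod_cast this
  have h4η : Real.exp 4 * η ≤ Real.exp (-196) := by
    calc Real.exp 4 * η ≤ Real.exp 4 * Real.exp (-200) := by gcongr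
      _ = Real.exp (-196) := by rw [← Real.exp_add]; norm_num
  have hd390 : d ≤ Real.exp (-(390 * p : ℝ)) := by
    refine hd1.trans ?_
    calc (Real.exp 4 * η) ^ (2 * p) ≤ Real.exp (-196) ^ (2 * p) :=
          pow_le_pow_left₀ (by positivity) h4η _
      _ = Real.exp (-(392 * p : ℝ)) := by
          rw [← Real.exp_nat_mul]; push_cast; ring_nf
      _ ≤ _ := Real.exp_le_exp.2 (by
          have : (0 : ℝ) ≤ p := by positivity
          linarith)
  have he1 : Real.exp (-(9 / 4)) ≤ 1055 / 10000 := by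
    have h3 := Real.exp_one_gt_d9
    have h1 : Real.exp (9 / 4) ^ 4 = Real.exp 1 ^ 9 := by
      rw [← Real.exp_nat_mul, ← Real.exp_nat_mul]; norm_num
    have h2 : (10000 / 1055 : ℝ) ^ 4 ≤ Real.exp (9 / 4) ^ 4 := by
      rw [h1]
      calc (10000 / 1055 : ℝ) ^ 4 ≤ 2.7182818283 ^ 9 := by norm_num
        _ ≤ _ := pow_le_pow_left₀ (by norm_num) (by linarith) 9
    have h4 : (10000 / 1055 : ℝ) ≤ Real.exp (9 / 4) :=
      le_of_pow_le_pow_left₀ (by norm_num) (Real.exp_pos _).le h2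
    rw [Real.exp_neg, inv_le_comm₀ (Real.exp_pos _) (by norm_num)]
    linarith
  have he2 : Real.exp (-(25 / 4)) ≤ 1 / 2 := by
    have h1 : Real.exp (-(25 / 4)) ≤ Real.exp (-1) := Real.exp_le_exp.2 (by norm_num)
    have := Real.exp_neg_one_lt_half
    linarith
  set x := Real.exp 4 * ‖ζ‖ with hx
  set y := (1 / 2 : ℝ) ^ m * Real.exp (-X) with hy
  have hy0 : 0 < y := by positivity
  have hxy : x ≤ 211 / 1000 * y := by
    obtain ⟨k, rfl⟩ : ∃ k, m = k + 1 := ⟨m - 1, by omega⟩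
    calc x ≤ Real.exp 4 * Real.exp (-X - 25 / 4 * ((k + 1 : ℕ) : ℝ)) := by rw [hx]; gcongr
      _ = Real.exp (-(9 / 4)) * Real.exp (-(25 / 4)) ^ k * Real.exp (-X) := by
          rw [← Real.exp_nat_mul, ← Real.exp_add, ← Real.exp_add, ← Real.exp_add]
          push_cast
          ring_nf
      _ ≤ 1055 / 10000 * (1 / 2) ^ k * Real.exp (-X) := by gcongr
      _ = 211 / 1000 * y := by rw [hy, pow_succ]; ring
  have hx0 : 0 ≤ x := by positivity
  have hy1 : y ≤ 1 / 2 := by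
    have h1 : (1 / 2 : ℝ) ^ m ≤ 1 / 2 := by
      calc (1 / 2 : ℝ) ^ m ≤ (1 / 2) ^ 1 := pow_le_pow_of_le_one (by norm_num) (by norm_num) hm
        _ = 1 / 2 := by norm_num
    have h2 : Real.exp (-X) ≤ 1 := by rw [Real.exp_le_one_iff]; linarith
    calc y ≤ 1 / 2 * 1 := by rw [hy]; gcongr
      _ = _ := by norm_num
  have hx1 : x ≤ 1055 / 10000 := by linarith
  have h1 := norm_fac_le hp1 hd hd390 (ζ := ζ) hx.symm (by linarith)
  refine h1.trans (Real.exp_le_exp.2 ?_)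
  have h2 : x ^ 2 / (1 - x) ≤ 118 / 1000 * x := by
    rw [div_le_iff₀ (by linarith)]
    nlinarith
  have h3 : x ^ 2 / (1 - x) + x / 1000 ≤ 119 / 1000 * x := by linarith
  have h30 : 0 ≤ x ^ 2 / (1 - x) := div_nonneg (by positivity) (by linarith)
  calc (p : ℝ) * (x ^ 2 / (1 - x) + x / 1000) ≤ (M + 1) * (119 / 1000 * x) := by
        apply mul_le_mul hpM' h3 (by positivity) (by linarith)
    _ ≤ (M + 1) * (119 / 1000 * (211 / 1000 * y)) := by gcongr
    _ ≤ M * (26 / 1000 * y) := by nlinarith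
    _ = _ := by rw [hy]; ring

end Vale.Agent.P250.H3
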