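import Vale.Agent.P250.H3.Bdle

/-!
P250 (helper3): infinitely many pairwise non-biholomorphic counterexamples in every dimension
`n ≥ 3`, with bounded holomorphic functions separating the points.
-/

set_option maxSynthPendingDepth 3
set_option linter.unusedSectionVars false

namespace Vale.Agent.P250.H3

open Set Filter Topology Metric Vale.Agent.P250 Vale.Agent.P250.G Vale.Agent.P250.H154

section B

variable {W : Type*} [NormedAddCommGroup W] [InnerProductSpace ℂ W] [FiniteDimensional ℂ W]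

variable (W) in
/-- the weight: all multiples `j χ`, `1 ≤ j ≤ K`, dominate only the zero function, but all large
multiples dominate many functions -/
theorem exists_chi (K : ℕ) : ∃ χ : (ℂ × ℂ) × W → ℝ, ContDiffOn ℝ (⊤ : ℕ∞) χ (DDG W) ∧
    (∀ x ∈ DDG W, χ (x.1, 0) ≤ χ x) ∧
    (∀ j : ℕ, 1 ≤ j → j ≤ K → NoFunction (fun q => (j : ℝ) * χ (q, 0))) ∧
    (∃ N0 : ℕ, ∀ N ≥ N0, HasFun χ N) ∧
    ∃ ε0 C0 C3 C4 : ℝ, 0 < ε0 ∧ 0 < C0 ∧ 0 < C3 ∧ 0 < C4 ∧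
      UniformJetsG (WithLp 2 (EuclideanSpace ℂ (Fin 2) × W)) (DDG W) PhiG ε0 C0 C3 C4 χ := by
  obtain ⟨CΨ, hC, hΨ⟩ := exists_Psi'
  obtain ⟨Ψ, η, hΨ, hη, hη1, hin, hout⟩ := hΨ (1000 * ((CΨ + 2) + (CΨ + 2) + 1) + 2)
  obtain ⟨lam, hlam3, hlam'⟩ := star_phi' CΨ _ hC Ψ hΨ
  have hlam : 2 ≤ lam := by linarith
  have hlog : 0 < Real.log lam := Real.log_pos (by linarith)
  set ε := 1 / (4 * Real.log lam) with hεd
  have hε : 0 < ε := by positivity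
  have hS := hlam' lam le_rfl ε hε le_rfl
  have hsm := phi_contDiffOn CΨ _ Ψ hΨ lam ε hlam
  have hsmG := phiG_contDiffOn (W := W) CΨ _ Ψ hΨ lam ε hlam
  obtain ⟨s0, hs0, hs⟩ := noFunction_of_star (phi Ψ lam ε) 4 (CΨ + 2) (CΨ + 2) _ hsm.continuousOn
    (by norm_num) (by linarith) (by linarith) (by linarith) hS
  have hK : (0 : ℝ) < (K : ℝ) + 1 := by positivity
  set s := s0 / ((K : ℝ) + 1) with hsd
  have hs1 : 0 < s := div_pos hs0 hK
  refine ⟨fun q => s * phiG Ψ lam ε q, contDiffOn_const.mul hsmG, ?_, ?_, ?_, ?_⟩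
  · intro x hx
    have hx0 : 0 < rhoG x := hx
    have h1 : rhoG x ≤ rho x.1 := by
      have : rhoG x = rho x.1 - ‖x.2‖ ^ 2 := rfl
      nlinarith [sq_nonneg ‖x.2‖]
    have h2 : Real.log (rhoG x) ≤ Real.log (rho x.1) := Real.log_le_log hx0 h1
    show s * phiG Ψ lam ε (x.1, 0) ≤ s * phiG Ψ lam ε x
    rw [phiG_zero]
    have h3 : phiG Ψ lam ε x = -ε * Real.log (rhoG x) + ∑' k, Sk Ψ lam k x.1 := rfl
    have h4 : phi Ψ lam ε x.1 = -ε * Real.log (rho x.1) + ∑' k, Sk Ψ lam k x.1 := rfl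
    rw [h3, h4]
    apply mul_le_mul_of_nonneg_left _ hs1.le
    nlinarith
  · intro j hj hjK
    simp only [phiG_zero]
    have h1 : (0 : ℝ) < j := by exact_mod_cast hj
    have h2 : (j : ℝ) ≤ K := by exact_mod_cast hjK
    have h3 : (j : ℝ) * s < s0 := by
      rw [hsd, mul_div_assoc', div_lt_iff₀ hK]
      nlinarith
    have h4 := hs ((j : ℝ) * s) (mul_pos h1 hs1) h3
    have h5 : (fun q => (j : ℝ) * (s * phi Ψ lam ε q)) =
        fun q => (j : ℝ) * s * phi Ψ lam ε q := by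
      funext q
      ring
    rw [h5]
    exact h4
  · refine ⟨⌈100 / s⌉₊, fun N hN q0 hq0 => ?_⟩
    have hM : 100 ≤ (N : ℝ) * s := by
      have h1 : 100 / s ≤ N := (Nat.le_ceil _).trans (by exact_mod_cast hN)
      rwa [div_le_iff₀ hs1] at h1
    obtain ⟨f, hf, ⟨C, hC⟩, hf0⟩ := exists_fun hΨ hη hη1 hin hout hlam3 hM hq0
    refine ⟨f, hf, ⟨C, fun q hq => ?_⟩, hf0⟩
    have := hC q hq
    rw [← hεd] at this
    show ‖f q‖ ≤ C * Real.exp (N * (s * phiG Ψ lam ε (q, 0)))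
    rw [phiG_zero, ← mul_assoc]
    exact this
  · exact phiG_uniformJets CΨ _ Ψ hΨ lam ε hlam hε s hs1

/-- the properties asked for in Q1, with the negative answer -/
def IsCex {E : Type*} [NormedAddCommGroup E] [NormedSpace ℂ E] (M : Set E) (g : E → E → E → ℝ)
    (Γ : E → E → E → E) : Prop :=
  IsOpen M ∧ SimplyConnectedSpace M ∧ S.IsKaehlerMetric g M ∧ S.IsLeviCivita g Γ M ∧
    S.GeodesicallyComplete Γ M ∧
    (∃ a b : ℝ, 0 < a ∧ a ≤ b ∧ ∀ p ∈ M, ∀ X Y, LinearIndependent ℝ ![X, Y] →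
      -b ≤ S.sectional g Γ p X Y ∧ S.sectional g Γ p X Y ≤ -a) ∧
    ¬ S.BiholomorphicToBoundedDomain M

variable (W) in
theorem main_W2 (K : ℕ) (hK : 1 ≤ K) : ∃ (M : Set (((ℂ × ℂ) × W) × ℂ))
    (g : ((ℂ × ℂ) × W) × ℂ → ((ℂ × ℂ) × W) × ℂ → ((ℂ × ℂ) × W) × ℂ → ℝ)
    (Γ : ((ℂ × ℂ) × W) × ℂ → ((ℂ × ℂ) × W) × ℂ → ((ℂ × ℂ) × W) × ℂ → ((ℂ × ℂ) × W) × ℂ),
    IsCex M g Γ ∧ SeparatesPoints M ∧
    (∃ p ∈ M, ∃ v, v ≠ 0 ∧ FlatAt M K p v ∧ StationaryAt M p v) ∧ ∃ N, ¬ Deg M N := by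
  obtain ⟨χ, hχ, hmono, hN, ⟨N0, hN0⟩, ε0, C0, C3, C4, h0, h1, h3, h4, hU⟩ := exists_chi W (K + 1)
  obtain ⟨C, hf⟩ := goodExhaustion_DDG (W := W)
  obtain ⟨g, Γ, hM, hS, hKm, hΓ, hC, ⟨a, b, ha, hab, hab'⟩⟩ := disc_bundle (DDG W) isOpen_DDG
    convex_DDG DDG_nonempty PhiG PhiG_contDiffOn exG C hf ε0 C0 C3 C4 h0 h1 h3 h4 χ hχ hU
  have hN1 : NoFunction (fun q => χ (q, 0)) := by
    have := hN 1 le_rfl (by omega)
    simpa using this
  have hq0 : ((0 : ℂ), Complex.I) ∈ DD := by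
    show 0 < rho (0, Complex.I)
    simp only [rho, Complex.I_im, Complex.zero_im, ne_eq, OfNat.ofNat_ne_zero,
      not_false_eq_true, zero_pow, sub_zero, zero_lt_one]
  have hflat := flat_G (K + 1) χ hχ.continuousOn hN _ hq0
  have hmem : ((((0 : ℂ), Complex.I), (0 : W)), (0 : ℂ)) ∈ MMg (DDG W) χ :=
    GNot.mem_MMg_zero hq0
  refine ⟨MMg (DDG W) χ, fun p X Y => g p X Y, fun p X Y => Γ p X Y,
    ⟨hM, hS, transfer_kaehler hM hKm,
    transfer_leviCivita hM hKm.toIsRiemannianMetric hΓ, transfer_complete hC,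
    ⟨a, b, ha, hab, fun p hp X Y hXY => ?_⟩,
    transfer_biholo (not_biholo_G χ hχ.continuousOn hN1)⟩, ?_, ?_, ?_⟩
  · rw [transfer_sectional (differentiableAt_of_open hM hΓ.smooth hp)]
    exact hab' p hp X Y hXY
  · exact separates hmono (N := N0 + 1) (by omega) (hN0 _ (by omega)) (hN0 _ (by omega))
  · refine ⟨_, hmem, ((0, 1) : ((ℂ × ℂ) × W) × ℂ), ?_, ?_, ?_⟩
    · intro h
      have := congrArg Prod.snd h
      simp at this
    · intro F hF hFC j hj hjK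
      exact hflat F hF hFC j hj (by omega)
    · exact FlatAt.stationary hM hmem hflat
  · exact ⟨N0 + 1, not_deg hχ.continuousOn hmono (by omega) (hN0 _ (by omega))⟩

end B

/-- the statement in `ℂⁿ` for one `K` -/
theorem exists_cex (n : ℕ) (hn : 3 ≤ n) (K : ℕ) (hK : 1 ≤ K) :
    ∃ (M : Set (EuclideanSpace ℂ (Fin n)))
      (g : EuclideanSpace ℂ (Fin n) → EuclideanSpace ℂ (Fin n) → EuclideanSpace ℂ (Fin n) → ℝ)
      (Γ : EuclideanSpace ℂ (Fin n) → EuclideanSpace ℂ (Fin n) → EuclideanSpace ℂ (Fin n)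
        → EuclideanSpace ℂ (Fin n)),
    IsCex M g Γ ∧ SeparatesPoints M ∧
    (∃ p ∈ M, ∃ v, v ≠ 0 ∧ StationaryAt M p v) ∧ Deg M K ∧ ∃ N, ¬ Deg M N := by
  obtain ⟨k, rfl⟩ := Nat.exists_eq_add_of_le hn
  obtain ⟨M, g, Γ, ⟨h1, h2, h3, h4, h5, h6, h7⟩, hsep, ⟨p, hp, v, hv, hfl, hst⟩, N, hN⟩ :=
    main_W2 (EuclideanSpace ℂ (Fin k)) K hK
  have hd : Module.finrank ℂ (((ℂ × ℂ) × EuclideanSpace ℂ (Fin k)) × ℂ)
      = Module.finrank ℂ (EuclideanSpace ℂ (Fin (3 + k))) := by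
    simp
    omega
  set e := ContinuousLinearEquiv.ofFinrankEq hd with he
  obtain ⟨M', g', Γ', hM', i1, i2, i3, i4, i5, i6, i7⟩ := transport' e _ g Γ h1 h2 h3 h4 h5 h6 h7
  have hmem : ∀ x ∈ M, e x ∈ M' := by
    intro x hx
    rw [hM']
    show e.symm (e x) ∈ M
    rwa [ContinuousLinearEquiv.symm_apply_apply]
  have hmem' : ∀ x ∈ M', e.symm x ∈ M := by
    intro x hx
    rw [hM'] at hx
    exact hx
  have hb : Biholomorphic M M' :=
    ⟨e, e.symm, e.differentiable.differentiableOn, e.symm.differentiable.differentiableOn,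
      hmem, hmem', fun x _ => e.symm_apply_apply x, fun x _ => e.apply_symm_apply x⟩
  refine ⟨M', g', Γ', ⟨i1, i2, i3, i4, i5, i6, i7⟩, hsep.map hb, ⟨e p, hmem p hp, e v, ?_, ?_⟩,
    ?_, N, ?_⟩
  · intro h
    exact hv (by simpa using h)
  · have h9 := (hfl.map e)
    rw [← hM'] at h9
    obtain ⟨K', rfl⟩ : ∃ K', K = K' + 1 := ⟨K - 1, by omega⟩
    exact FlatAt.stationary i1 (hmem p hp) h9
  · exact (Deg.of_flat h1 hp hv hfl).map i1 hb
  · intro h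
    exact hN (h.map h1 hb.symm)

/-- **Main theorem.** -/
theorem family (n : ℕ) (hn : 3 ≤ n) :
    ∃ (M : ℕ → Set (EuclideanSpace ℂ (Fin n)))
      (g : ℕ → EuclideanSpace ℂ (Fin n) → EuclideanSpace ℂ (Fin n) →
        EuclideanSpace ℂ (Fin n) → ℝ)
      (Γ : ℕ → EuclideanSpace ℂ (Fin n) → EuclideanSpace ℂ (Fin n) →
        EuclideanSpace ℂ (Fin n) → EuclideanSpace ℂ (Fin n)),
    (∀ i, IsCex (M i) (g i) (Γ i) ∧ SeparatesPoints (M i) ∧
      ∃ p ∈ M i, ∃ v, v ≠ 0 ∧ StationaryAt (M i) p v) ∧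
    ∀ i j, i ≠ j → ¬ Biholomorphic (M i) (M j) := by
  have h : ∀ K : ℕ, ∃ (M : Set (EuclideanSpace ℂ (Fin n)))
      (g : EuclideanSpace ℂ (Fin n) → EuclideanSpace ℂ (Fin n) → EuclideanSpace ℂ (Fin n) → ℝ)
      (Γ : EuclideanSpace ℂ (Fin n) → EuclideanSpace ℂ (Fin n) → EuclideanSpace ℂ (Fin n)
        → EuclideanSpace ℂ (Fin n)) (N : ℕ),
    IsCex M g Γ ∧ SeparatesPoints M ∧
    (∃ p ∈ M, ∃ v, v ≠ 0 ∧ StationaryAt M p v) ∧ Deg M (K + 1) ∧ ¬ Deg M N := by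
    intro K
    obtain ⟨M, g, Γ, a, b, c, d, N, e⟩ := exists_cex n hn (K + 1) (by omega)
    exact ⟨M, g, Γ, N, a, b, c, d, e⟩
  choose M g Γ N h1 h2 h3 h4 h5 using h
  -- `κ (i + 1) = N (κ i)`
  let κ : ℕ → ℕ := fun i => Nat.rec 0 (fun _ k => N k) i
  have hκ : ∀ i, κ (i + 1) = N (κ i) := fun i => rfl
  have hlt : ∀ K, K + 1 < N K := by
    intro K
    by_contra hc
    exact h5 K ((h4 K).mono (by omega))
  have hmono : StrictMono κ := by
    apply strictMono_nat_of_lt_succ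
    intro i
    rw [hκ]
    have := hlt (κ i)
    omega
  refine ⟨fun i => M (κ i), fun i => g (κ i), fun i => Γ (κ i),
    fun i => ⟨h1 _, h2 _, h3 _⟩, ?_⟩
  have key : ∀ i j, i < j → ¬ Biholomorphic (M (κ j)) (M (κ i)) := by
    intro i j hij hb
    have e1 : κ (i + 1) ≤ κ j := hmono.monotone hij
    rw [hκ] at e1
    have e2 : Deg (M (κ j)) (N (κ i)) := (h4 (κ j)).mono (by omega)
    exact h5 _ (e2.map (h1 (κ i)).1 hb)
  intro i j hij hb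
  rcases lt_or_gt_of_ne hij with hlt' | hlt'
  · exact key i j hlt' hb.symm
  · exact key j i hlt' hb

end Vale.Agent.P250.H3
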