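import Vale.Agent.P250.Bdl.B2

/-!
P250 (helper3): the well with a larger constant and the star property with an explicit `ε`
(copies of the landed proofs of `exists_Psi` and `star_phi` with explicit constants).
-/

set_option maxSynthPendingDepth 3

namespace Vale.Agent.P250.H3

open Set Filter Topology Vale.Agent.P250 Vale.Agent.P250.PsiAux Vale.Agent.P250.StarPhi

/-- The well with a larger constant, and the lower bounds needed for the existence of functions. -/
theorem exists_Psi' : ∃ CΨ > 0, ∀ Λ : ℝ, ∃ (Ψ : ℂ → ℝ) (η : ℝ), IsPsi CΨ Λ Ψ ∧ 0 < η ∧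
    η ≤ Real.exp (-200) ∧
    (∀ ζ : ℂ, ‖ζ‖ ≤ 1 → ‖ζ‖ ^ 2 ≤ Real.exp (-(19 / 2)) → 0 ≤ Ψ ζ) ∧
    (∀ ζ : ℂ, ‖ζ‖ ≤ 1 → Real.exp (-(19 / 2)) ≤ ‖ζ‖ ^ 2 →
      Real.log (‖ζ - ((Real.exp (-4) : ℝ) : ℂ)‖ ^ 2 + η ^ 2) + 200 ≤ Ψ ζ) := by
  obtain ⟨K, hK0, hK⟩ := exists_bound
  set c : ℝ := 16 * expNegInvGlue ((Real.exp (-(19 / 2)) - Real.exp (-10)) / 4) with hc
  have hcpos : 0 < c := by
    have : 0 < (Real.exp (-(19 / 2)) - Real.exp (-10)) / 4 := by linarith only [exp_lt₁]
    have := expNegInvGlue.pos_of_pos this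
    (clear * - this; positivity)
  set B : ℝ := (K + 3200) / c with hB
  have hB0 : 0 ≤ B := by (clear * - hK0 hcpos; positivity)
  have hexp1 : Real.exp (-(17 / 2)) < 1 := by
    rw [Real.exp_lt_one_iff]
    norm_num
  refine ⟨B + Real.log 5, by have := Real.log_pos (show (1 : ℝ) < 5 by norm_num); linarith only [hB0, this], ?_⟩
  intro Λ
  set η : ℝ := Real.exp (-(|Λ| + B)) with hη
  have hη0 : 0 < η := Real.exp_pos _
  have hη1 : η ≤ 1 := by
    rw [hη, Real.exp_le_one_iff]
    have := abs_nonneg Λ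
    linarith only [hB0, this]
  have hpos : ∀ z : ℂ, 0 < ‖z - ((Real.exp (-4) : ℝ) : ℂ)‖ ^ 2 + η ^ 2 := fun z => by (clear * -; positivity)
  have hsmF : ContDiff ℝ (⊤ : ℕ∞) (fun z : ℂ => FF (η, z)) := by
    rw [contDiff_iff_contDiffAt]
    intro z
    have h1 : ContDiffAt ℝ (⊤ : ℕ∞) FF (η, z) := contDiffAt_FF (hpos z)
    have h2 : ContDiffAt ℝ (⊤ : ℕ∞) (fun z : ℂ => (η, z)) z :=
      contDiffAt_const.prodMk contDiffAt_id
    exact h1.comp z h2
  have hBc : B * c = K + 3200 := by rw [hB]; field_simp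
  have hB200 : 200 ≤ B := by
    have h1 : c ≤ 16 := by
      rw [hc]
      have : expNegInvGlue ((Real.exp (-(19 / 2)) - Real.exp (-10)) / 4) ≤ 1 := by
        have h0 : 0 < (Real.exp (-(19 / 2)) - Real.exp (-10)) / 4 := by linarith only [exp_lt₁]
        rw [expNegInvGlue, if_neg (not_le.2 h0), Real.exp_le_one_iff]
        have := inv_pos.2 h0
        linarith only [this]
      linarith only [this]
    nlinarith only [h1, hBc, hK0, hB0]
  refine ⟨fun z => B * EE z + FF (η, z), η, ⟨?_, ?_, ?_, ?_, ?_⟩, hη0, ?_, ?_, ?_⟩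
  · exact (contDiff_const.mul contDiff_EE).add hsmF
  · intro z hz
    have h1 : ‖z‖ ^ 2 ≤ Real.exp (-10) := by
      have : Real.exp (-10) = Real.exp (-5) ^ 2 := by
        rw [← Real.exp_nat_mul]
        norm_num
      rw [this]
      exact pow_le_pow_left₀ (norm_nonneg _) hz 2
    have h2 : EE z = 0 := expNegInvGlue.zero_of_nonpos (by linarith only [h1])
    have h3 : CC z = 0 := by
      apply Real.smoothTransition.zero_of_nonpos
      apply div_nonpos_of_nonpos_of_nonneg
      · linarith only [h1, exp_lt₁]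
      · linarith only [exp_lt₂]
    simp only [h2, mul_zero, FF, h3, Complex.ofReal_exp, Complex.ofReal_neg, Complex.ofReal_ofNat, zero_mul, add_zero]
  · intro z hz
    have h1 : EE z ≤ 1 := by
      unfold EE
      rcases le_or_gt ((‖z‖ ^ 2 - Real.exp (-10)) / 4) 0 with h | h
      · rw [expNegInvGlue.zero_of_nonpos h]
        norm_num
      · rw [expNegInvGlue, if_neg (not_le.2 h), Real.exp_le_one_iff]
        have := inv_pos.2 h
        linarith only [this]
    have h2 : FF (η, z) ≤ Real.log 5 := by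
      have h3 : Real.log (‖z - ((Real.exp (-4) : ℝ) : ℂ)‖ ^ 2 + η ^ 2) ≤ Real.log 5 := by
        apply Real.log_le_log (hpos z)
        have h4 : ‖z - ((Real.exp (-4) : ℝ) : ℂ)‖ ≤ 2 := by
          calc ‖z - ((Real.exp (-4) : ℝ) : ℂ)‖ ≤ ‖z‖ + ‖((Real.exp (-4) : ℝ) : ℂ)‖ := norm_sub_le _ _
            _ ≤ 1 + 1 := by
              gcongr
              rw [Complex.norm_real, Real.norm_eq_abs, abs_of_pos (Real.exp_pos _),
                Real.exp_le_one_iff]
              (clear * -; norm_num)
            _ = 2 := by norm_num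
        have h5 : ‖z - ((Real.exp (-4) : ℝ) : ℂ)‖ ^ 2 ≤ 4 := by
          nlinarith only [h4, norm_nonneg (z - ((Real.exp (-4) : ℝ) : ℂ))]
        nlinarith only [hη1, h5, hη0]
      have h6 : 0 ≤ Real.log 5 := Real.log_nonneg (by norm_num)
      have h7 : 0 ≤ CC z := Real.smoothTransition.nonneg _
      have h8 : CC z ≤ 1 := Real.smoothTransition.le_one _
      calc FF (η, z) ≤ CC z * Real.log 5 := mul_le_mul_of_nonneg_left h3 h7
        _ ≤ 1 * Real.log 5 := mul_le_mul_of_nonneg_right h8 h6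
        _ = Real.log 5 := one_mul _
    have h3 : B * EE z ≤ B * 1 := mul_le_mul_of_nonneg_left h1 hB0
    change B * EE z + FF (η, z) ≤ _
    linarith only [h2, h3]
  · have h1 : CC ((Real.exp (-4) : ℝ) : ℂ) = 1 := by
      apply Real.smoothTransition.one_of_one_le
      rw [one_le_div (by linarith only [exp_lt₂]), Complex.norm_real, Real.norm_eq_abs, sq_abs]
      linarith only [exp_lt₃]
    have h2 : EE ((Real.exp (-4) : ℝ) : ℂ) ≤ 1 := by
      unfold EE
      rcases le_or_gt ((‖((Real.exp (-4) : ℝ) : ℂ)‖ ^ 2 - Real.exp (-10)) / 4) 0 with h | h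
      · rw [expNegInvGlue.zero_of_nonpos h]
        norm_num
      · rw [expNegInvGlue, if_neg (not_le.2 h), Real.exp_le_one_iff]
        have := inv_pos.2 h
        linarith only [this]
    have h3 : FF (η, ((Real.exp (-4) : ℝ) : ℂ)) = 2 * Real.log η := by
      unfold FF
      rw [h1, sub_self, norm_zero, one_mul]
      norm_num
    have h4 : Real.log η = -(|Λ| + B) := by rw [hη, Real.log_exp]
    change B * EE _ + FF (η, _) ≤ _
    rw [h3, h4]
    have h5 : B * EE ((Real.exp (-4) : ℝ) : ℂ) ≤ B * 1 := mul_le_mul_of_nonneg_left h2 hB0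
    have h6 := le_abs_self Λ
    have h7 := abs_nonneg Λ
    linarith only [hB0, h5, h6, h7]
  · intro z hz X
    have hE : ContDiffAt ℝ 2 EE z := contDiff_EE.contDiffAt.of_le two_le_top'
    have hF : ContDiffAt ℝ 2 (fun z => FF (η, z)) z := hsmF.contDiffAt.of_le two_le_top'
    have hBE : ContDiffAt ℝ 2 (fun z => B * EE z) z := contDiffAt_const.mul hE
    change 0 ≤ LL (fun z => B * EE z + FF (η, z)) z X
    rw [LL_eq (hBE.add hF), LL_add hBE hF, LL_const_mul hE]
    have hEl := LL_EE_lower z hz.le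
    have hE0 : 0 ≤ LL EE z 1 := le_trans (by
      have := expNegInvGlue.nonneg ((‖z‖ ^ 2 - Real.exp (-10)) / 4)
      (clear * - this; positivity)) hEl
    have hnorm : Continuous (fun w : ℂ => ‖w‖ ^ 2) := by fun_prop
    refine mul_nonneg (by (clear * -; positivity)) ?_
    rcases lt_or_ge (‖z‖ ^ 2) (Real.exp (-(19 / 2))) with hz1 | hz1
    · -- inner region: the well vanishes
      have e : (fun w => FF (η, w)) =ᶠ[𝓝 z] fun _ => (0 : ℝ) := by
        filter_upwards [hnorm.continuousAt.eventually (gt_mem_nhds hz1)] with w hw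
        have : CC w = 0 := by
          apply Real.smoothTransition.zero_of_nonpos
          apply div_nonpos_of_nonpos_of_nonneg
          · linarith only [hw]
          · linarith only [exp_lt₂]
        simp only [FF, this, Complex.ofReal_exp, Complex.ofReal_neg, Complex.ofReal_ofNat, zero_mul]
      have e0 : LL (fun w => FF (η, w)) z 1 = 0 := by
        rw [LL_congr e]
        simp only [LL, fderiv_fun_const, fderiv_zero, Pi.zero_apply, zero_apply, mul_one, add_zero]
      rw [e0, add_zero]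
      exact mul_nonneg hB0 hE0
    · rcases le_or_gt (‖z‖ ^ 2) (Real.exp (-(17 / 2))) with hz2 | hz2
      · -- annulus
        have h1 := hK η ⟨hη0.le, hη1⟩ z hz2
        have h2 : c ≤ LL EE z 1 := by
          refine le_trans ?_ hEl
          rw [hc]
          exact mul_le_mul_of_nonneg_left
            (expNegInvGlue.monotone (by linarith only [hz1])) (by norm_num)
        have h3 : K ≤ B * LL EE z 1 := by
          calc K ≤ B * c := by rw [hBc]; linarith only
            _ ≤ B * LL EE z 1 := mul_le_mul_of_nonneg_left h2 hB0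
        linarith only [h1, h3]
      · -- outer region
        have e : (fun w => FF (η, w)) =ᶠ[𝓝 z]
            fun w => Real.log (‖w - ((Real.exp (-4) : ℝ) : ℂ)‖ ^ 2 + η ^ 2) := by
          filter_upwards [hnorm.continuousAt.eventually (lt_mem_nhds hz2)] with w hw
          have : CC w = 1 := by
            apply Real.smoothTransition.one_of_one_le
            rw [one_le_div (by linarith only [exp_lt₂])]
            linarith only [hw]
          simp only [FF, this, Complex.ofReal_exp, Complex.ofReal_neg, Complex.ofReal_ofNat, one_mul]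
        rw [LL_congr e]
        exact add_nonneg (mul_nonneg hB0 hE0) (LL_log _ _ _ hη0)
  · rw [hη]
    apply Real.exp_le_exp.2
    have := abs_nonneg Λ
    linarith only [this, hB200]
  · intro z hz hz2
    have h3 : CC z = 0 := by
      apply Real.smoothTransition.zero_of_nonpos
      apply div_nonpos_of_nonpos_of_nonneg
      · linarith only [hz2]
      · linarith only [exp_lt₂]
    have h4 : 0 ≤ EE z := expNegInvGlue.nonneg _
    simp only [FF, h3, zero_mul, add_zero]
    exact mul_nonneg hB0 h4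
  · intro z hz hz2
    have h4 : 200 ≤ B * EE z := by
      have h5 : c ≤ 16 * EE z := by
        rw [hc]
        exact mul_le_mul_of_nonneg_left
          (expNegInvGlue.monotone (by linarith only [hz2])) (by norm_num)
      nlinarith only [h5, hBc, hK0, hB0]
    have h5 : Real.log (‖z - ((Real.exp (-4) : ℝ) : ℂ)‖ ^ 2 + η ^ 2) ≤ FF (η, z) := by
      unfold FF
      rcases le_or_gt (‖z‖ ^ 2) (Real.exp (-(17 / 2))) with h6 | h6
      · have h7 : Real.log (‖z - ((Real.exp (-4) : ℝ) : ℂ)‖ ^ 2 + η ^ 2) ≤ 0 := by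
          apply Real.log_nonpos (hpos z).le
          have h8 : ‖z‖ ≤ 1 / 2 := by
            have : Real.exp (-(17 / 2)) ≤ (1 / 2) ^ 2 := by
              have h9 : Real.exp (-(17 / 2)) ≤ Real.exp (-2) := Real.exp_le_exp.2 (by norm_num)
              have h10 : Real.exp (-2) ≤ (1 / 2) ^ 2 := by
                have : Real.exp (-2) = Real.exp (-1) ^ 2 := by
                  rw [← Real.exp_nat_mul]; norm_num
                rw [this]
                exact pow_le_pow_left₀ (Real.exp_pos _).le (by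
                  have := Real.exp_neg_one_lt_half
                  linarith only [this]) 2
              exact h9.trans h10
            exact abs_le_of_sq_le_sq' (h6.trans this) (by norm_num) |>.2
          have h9 : Real.exp (-4) ≤ 1 / 4 := by
            have h9 : Real.exp (-4) ≤ Real.exp (-2) := Real.exp_le_exp.2 (by norm_num)
            have h10 : Real.exp (-2) ≤ (1 / 2) ^ 2 := by
              have : Real.exp (-2) = Real.exp (-1) ^ 2 := by
                rw [← Real.exp_nat_mul]; norm_num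
              rw [this]
              exact pow_le_pow_left₀ (Real.exp_pos _).le (by
                have := Real.exp_neg_one_lt_half
                linarith only [this]) 2
            linarith only [h9, h10]
          have h10 : ‖z - ((Real.exp (-4) : ℝ) : ℂ)‖ ≤ 3 / 4 := by
            calc ‖z - ((Real.exp (-4) : ℝ) : ℂ)‖ ≤ ‖z‖ + ‖((Real.exp (-4) : ℝ) : ℂ)‖ := norm_sub_le _ _
              _ ≤ 1 / 2 + 1 / 4 := by
                rw [Complex.norm_real, Real.norm_eq_abs, abs_of_pos (Real.exp_pos _)]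
                linarith only [h8, h9]
              _ = 3 / 4 := by norm_num
          have h11 : η ≤ 1 / 4 := by
            refine le_trans ?_ h9
            rw [hη]
            apply Real.exp_le_exp.2
            have := abs_nonneg Λ
            linarith only [this, hB200]
          nlinarith only [h10, h11, hη0, norm_nonneg (z - ((Real.exp (-4) : ℝ) : ℂ))]
        have h8 : CC z ≤ 1 := Real.smoothTransition.le_one _
        nlinarith only [h7, h8]
      · have : CC z = 1 := by
          apply Real.smoothTransition.one_of_one_le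
          rw [one_le_div (by linarith only [exp_lt₂])]
          linarith only [h6]
        rw [this, one_mul]
    linarith only [h4, h5]


/-- The landed `star_phi` with the explicit value of `ε`. -/
theorem star_phi' (CΨ Λ : ℝ) (hC : 0 < CΨ) (Ψ : ℂ → ℝ) (hΨ : IsPsi CΨ Λ Ψ) :
    ∃ lam0 ≥ (3 : ℝ), ∀ lam ≥ lam0, ∀ ε, 0 < ε → ε ≤ 1 / (4 * Real.log lam) →
      Star (phi Ψ lam ε) 4 (CΨ + 2) (CΨ + 2) (Λ - 2) := by
  obtain ⟨L, hL, hLip⟩ := exists_lip hΨ
  refine ⟨max 3 (2304 * L), le_max_left _ _,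
    fun lam hlam => ?_⟩
  have hlam3 : 3 ≤ lam := (le_max_left _ _).trans hlam
  have hlamL : 2304 * L ≤ lam := (le_max_right _ _).trans hlam
  have hl0 : 0 < lam := by linarith only [hL, hlamL]
  have hl1 : 1 ≤ lam := by linarith only [hlam3]
  have hl2 : 2 ≤ lam := by linarith only [hlam3]
  have hlog : 0 < Real.log lam := Real.log_pos (by linarith only [hlam3])
  intro ε hε hε1
  have hεlog : ε * Real.log lam ≤ 1 / 4 := by
    calc ε * Real.log lam ≤ 1 / (4 * Real.log lam) * Real.log lam := by (clear * - hε1 hlog; gcongr)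
      _ = 1 / 4 := by (clear * - hlog; field_simp)
  intro p hp hp4
  have hρ : 0 < rho p := hp
  have hρ4 : rho p ≤ 4 := by rw [rho]; linarith only [hp4, sq_nonneg p.1.im]
  obtain ⟨k, hk1, hk2⟩ := exists_scale hl2 hρ hρ4
  obtain ⟨x0, hx0, hSk⟩ := exists_line hC hΨ hl0 hk2
  have ha : 0 < lam ^ (2 * k) := by positivity
  have hA : 0 < lam ^ (2 * (k + 1)) := by positivity
  have hAA : lam ^ (2 * (k + 1)) = lam ^ 2 * lam ^ (2 * k) := by rw [← pow_add]; congr 1; ring
  have haa : lam ^ (2 * k) = lam ^ k * lam ^ k := by rw [← pow_add]; congr 1; omega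
  set d : ℝ := p.1.im - x0 with hd
  set R : ℝ := Real.sqrt (rho p + d ^ 2) with hR
  set R' : ℝ := Real.sqrt (rho p + d ^ 2 - 5 / lam ^ (2 * (k + 1))) with hR'
  have hRsq : R ^ 2 = rho p + d ^ 2 := Real.sq_sqrt (by (clear * - hρ; positivity))
  have h5A : 5 / lam ^ (2 * (k + 1)) ≤ rho p := by
    rw [div_le_iff₀ hA, mul_comm]; exact hk1
  have h5A0 : 0 < 5 / lam ^ (2 * (k + 1)) := by positivity
  have hR'sq : R' ^ 2 = rho p + d ^ 2 - 5 / lam ^ (2 * (k + 1)) :=
    Real.sq_sqrt (by linarith only [h5A, sq_nonneg d])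
  have hR0 : 0 < R := Real.sqrt_pos.2 (by (clear * - hρ; positivity))
  have hR'0 : 0 ≤ R' := Real.sqrt_nonneg _
  have hRR : R' ≤ R := Real.sqrt_le_sqrt (by linarith only [h5A0])
  have hdR' : |d| ≤ R' := by
    rw [← Real.sqrt_sq_eq_abs]; exact Real.sqrt_le_sqrt (by linarith only [h5A])
  have hdR'2 := abs_le.1 hdR'
  have hkR : lam ^ k * R ≤ 9 / 4 := by
    have h1 : (lam ^ k * R) ^ 2 ≤ (9 / 4) ^ 2 := by
      rw [mul_pow, hRsq]
      have : (lam ^ k) ^ 2 = lam ^ (2 * k) := by rw [haa]; ring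
      rw [this]
      norm_num
      linarith only [hx0]
    exact abs_le_of_sq_le_sq' h1 (by norm_num) |>.2
  have hlk : 0 < lam ^ k := by positivity
  -- points of the rectangle
  have hrect : ∀ ζ : ℂ, |ζ.re| ≤ 2 * R → -R' - d ≤ ζ.im → ζ.im ≤ R' - d →
      5 ≤ lam ^ (2 * (k + 1)) * rho (p + ζ • ((1 : ℂ), (2 * x0 : ℂ))) ∧
      Close lam k x0 (p + ζ • ((1 : ℂ), (2 * x0 : ℂ))) p := by
    intro ζ h1 h2 h3
    have h4 : |ζ.im + d| ≤ R' := abs_le.2 ⟨by linarith only [h2], by linarith only [h3]⟩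
    constructor
    · rw [rho_line, ← hd]
      have h5 : (ζ.im + d) ^ 2 ≤ R' ^ 2 := sq_le_sq' (abs_le.1 h4).1 (abs_le.1 h4).2
      have h6 : 5 / lam ^ (2 * (k + 1)) ≤ rho p + d ^ 2 - (ζ.im + d) ^ 2 := by linarith only [hR'sq, h5]
      rwa [div_le_iff₀ hA, mul_comm] at h6
    · have e1 : (p + ζ • ((1 : ℂ), (2 * x0 : ℂ))).1 = p.1 + ζ := by simp
      have e2 : (p + ζ • ((1 : ℂ), (2 * x0 : ℂ))).2 = p.2 + ζ * (2 * x0) := by simp
      have h7 : |ζ.im| ≤ 2 * R := abs_le.2 ⟨by linarith only [hRR, hdR'2, h2], by linarith only [hRR, hdR'2, h3]⟩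
      have h8 : ‖ζ‖ ≤ 4 * R := by
        have := Complex.norm_le_abs_re_add_abs_im ζ
        linarith only [h1, h7, this]
      refine ⟨?_, ?_, ?_, ?_⟩
      · rw [e1, e2]
        have : p.2 + ζ * (2 * x0) - p.2 - 2 * x0 * (p.1 + ζ - p.1) = (0 : ℂ) := by ring
        rw [this]; simp
      · rw [e1]
        have : p.1 + ζ - p.1 = ζ := by ring
        rw [this]
        calc lam ^ k * ‖ζ‖ ≤ lam ^ k * (4 * R) := by (clear * - h8 hlam3; gcongr)
          _ = 4 * (lam ^ k * R) := by ring
          _ ≤ 4 * (9 / 4) := by (clear * - hkR; gcongr)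
          _ = 9 := by norm_num
      · rw [e1]
        have : (p.1 + ζ).im - x0 = ζ.im + d := by rw [hd]; simp only [Complex.add_im]; ring
        rw [this]
        calc lam ^ k * |ζ.im + d| ≤ lam ^ k * R := by gcongr; linarith only [hRR, h4]
          _ ≤ 9 / 4 := hkR
          _ ≤ 9 := by norm_num
      · rw [← hd]
        calc lam ^ k * |d| ≤ lam ^ k * R := by gcongr; linarith only [hRR, hdR']
          _ ≤ 9 / 4 := hkR
          _ ≤ 9 := by norm_num
  refine ⟨x0, R, -R' - d, R' - d, hR0, by linarith only [hdR'2], by linarith only [hdR'2], by linarith only [hRR], ?_, ?_⟩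
  · intro ζ h1 h2 h3
    obtain ⟨h4, h5⟩ := hrect ζ h1 h2 h3
    have h6 := pos_of hl0 (by norm_num) h4
    refine ⟨h6, ?_⟩
    have h7 : rho p ≤ lam ^ 2 * rho (p + ζ • ((1 : ℂ), (2 * x0 : ℂ))) := by
      have h8 : lam ^ (2 * k) * rho p
          ≤ lam ^ (2 * k) * (lam ^ 2 * rho (p + ζ • ((1 : ℂ), (2 * x0 : ℂ)))) := by
        rw [← mul_assoc, mul_comm (lam ^ (2 * k)) (lam ^ 2), ← hAA]
        linarith only [hk2, h4]
      exact le_of_mul_le_mul_left h8 ha
    have h9 := phi_close hΨ hL hLip hl2 hlamL hε hεlog h6 hρ h5 h4 hk1 h7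
    have h10 := hSk ζ h6.le
    linarith only [h9, h10]
  · intro ζ h1 h2
    apply edge_phi hΨ hL hLip hlam3 hlamL hε hεlog (N := k + 1)
    rw [rho_line, ← hd]
    have h6 : (ζ.im + d) ^ 2 = R' ^ 2 := by
      rcases h2 with h | h
      · rw [h]; ring
      · rw [h]; ring
    rw [h6, hR'sq]
    field_simp
    ring

end Vale.Agent.P250.H3
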